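import Crest.Agent.N336.Defs

/-!
# Row 336, S0523 (PEPS): frozen interface of the parts (helper50, note H50-P)

* `CLStmt`    compression of a network of gates with pair sources / pair effects;
* `RTStmt`    routing: a sum over labels of products of party tensors is a PEPS;
* `SoundStmt` a valid combinatorial plan (colourings, holes, moves) gives a gate network;
* `VWStmt`    cone (variable width) decoupling;
* `GeoStmt`   the painter schedule: existence of a valid plan with routes;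
* `PtStmt`    patch families for boxes; `ShapeStmt` the birth / death shapes decouple.
-/

set_option autoImplicit false

namespace Crest.Agent.N336.P

open Crest.MathPhysics.LatticeSpin
open scoped Matrix

/-! ## Gate networks -/

section gates

variable {Rg Pa : Type} [Fintype Rg] [DecidableEq Rg] [DecidableEq Pa] {q : ℕ}

/-- An elementary step: an operator `M` on the registers `A` and the ownership after it. -/
structure Step (Rg Pa : Type) [Fintype Rg] [DecidableEq Rg] (q : ℕ) where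
  A : Finset Rg
  M : Matrix (↥A → Fin q) (↥A → Fin q) ℂ
  out : Rg → Pa

/-- The vector `a` on `A` is a pair vector for the ownership `o` (at most two owners) or a multiple
of a basis vector. -/
def PB (o : Rg → Pa) (A : Finset Rg) (a : (↥A → Fin q) → ℂ) : Prop :=
  (∃ p p' : Pa, ∀ r ∈ A, o r = p ∨ o r = p') ∨ (∃ (e : ↥A → Fin q) (c : ℂ), a = Pi.single e c)

/-- A step is valid from the ownership `o` among the parties `I`: private contraction, or rank one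
with pair-or-basis effect and pair-or-basis source. -/
def Step.Valid (st : Step Rg Pa q) (I : Finset Pa) (o : Rg → Pa) : Prop :=
  (∀ r, r ∉ st.A → st.out r = o r) ∧ (∀ r ∈ st.A, o r ∈ I ∧ st.out r ∈ I) ∧
    ((opN st.M ≤ 1 ∧ ∃ p, ∀ r ∈ st.A, o r = p ∧ st.out r = p) ∨
      ∃ a a' : (↥st.A → Fin q) → ℂ, st.M = Matrix.vecMulVec a (star a') ∧
        ∑ σ, ‖a σ‖ ^ 2 ≤ 1 ∧ ∑ σ, ‖a' σ‖ ^ 2 ≤ 1 ∧ PB o st.A a' ∧ PB st.out st.A a)

/-- A list of steps leads validly from the ownership `o` to `o'`. -/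
def Chain (I : Finset Pa) : (Rg → Pa) → List (Step Rg Pa q) → (Rg → Pa) → Prop
  | o, [], o' => o = o'
  | o, st :: l, o' => st.Valid I o ∧ Chain I st.out l o'

/-- The operator of a list of steps (the head acts first). -/
noncomputable def opOf : List (Step Rg Pa q) → Op Rg q
  | [] => 1
  | st :: l => opOf l * localOp st.A st.M

/-- A gate: a set of parties and finitely many branches. -/
structure Gate (Rg Pa : Type) [Fintype Rg] [DecidableEq Rg] (q : ℕ) where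
  I : Finset Pa
  nb : ℕ
  br : Fin nb → List (Step Rg Pa q)

/-- The operator of a gate. -/
noncomputable def Gate.op (g : Gate Rg Pa q) : Op Rg q := ∑ β, opOf (g.br β)

/-- Validity of a gate: rigid ownership before and after, contraction, size bounds. -/
def Gate.Valid (g : Gate Rg Pa q) (B ℓ : ℕ) (o o' : Rg → Pa) : Prop :=
  1 ≤ g.nb ∧ g.nb ≤ B ∧ (∀ β, (g.br β).length ≤ ℓ ∧ Chain g.I o (g.br β) o') ∧ opN g.op ≤ 1

/-- The vector after the first `t` gates. -/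
noncomputable def run (g : ℕ → Gate Rg Pa q) (ψ₀ : Vec Rg q) : ℕ → Vec Rg q
  | 0 => ψ₀
  | t + 1 => act (g t).op (run g ψ₀ t)

end gates

/-- `Φ` is a sum over labels `x g ∈ Fin V` (one per gate) of products of party tensors; the tensor
of `p` sees only the sites finally owned by `p` and the labels of the gates involving `p`. -/
def PartyForm {Λ Pa : Type} [Fintype Pa] [DecidableEq Pa] {q : ℕ} (n V : ℕ) (fin : Λ → Pa)
    (I : ℕ → Finset Pa) (Φ : (Λ → Fin q) → ℂ) : Prop :=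
  ∃ M : Pa → (Λ → Fin q) → (Fin n → Fin V) → ℂ,
    (∀ p σ σ' x x', (∀ z, fin z = p → σ z = σ' z) → (∀ g : Fin n, p ∈ I g → x g = x' g) →
      M p σ x = M p σ' x') ∧
    ∀ σ, Φ σ = ∑ x : Fin n → Fin V, ∏ p, M p σ x

/-- `Φ ≠ 0` is within `ε` of `Ω` after normalisation and up to a phase. -/
def Near {Λ : Type} [Fintype Λ] [DecidableEq Λ] {q : ℕ} (Φ Ω : Vec Λ q) (ε : ℝ) : Prop :=
  Φ ≠ 0 ∧ ∃ θ : ℝ, ‖((‖Φ‖⁻¹ : ℝ) : ℂ) • Φ - Complex.exp ((θ : ℂ) * Complex.I) • Ω‖ ≤ ε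

/-- A gate network preparing `φ ⊗ junk` on the output registers `ι` up to `ε`. -/
structure Net (q : ℕ) (Λ Pa : Type) [Fintype Λ] [DecidableEq Λ] [Fintype Pa] [DecidableEq Pa]
    (φ : Vec Λ q) (n B ℓ : ℕ) (fin : Λ → Pa) (I : ℕ → Finset Pa) (ε : ℝ) where
  Rg : Type
  [fR : Fintype Rg]
  [dR : DecidableEq Rg]
  g : ℕ → Gate Rg Pa q
  own : ℕ → Rg → Pa
  hI : ∀ t < n, (g t).I = I t
  valid : ∀ t < n, (g t).Valid B ℓ (own t) (own (t + 1))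
  ψ₀ : Vec Rg q
  norm₀ : ‖ψ₀‖ ≤ 1
  prod₀ : ∃ f : Pa → (Rg → Fin q) → ℂ,
    (∀ p σ σ', (∀ r, own 0 r = p → σ r = σ' r) → f p σ = f p σ') ∧ ∀ σ, ψ₀ σ = ∏ p, f p σ
  ι : Λ ↪ Rg
  hfin : ∀ z, own n (ι z) = fin z
  tgt : Vec Rg q
  norm_tgt : ‖tgt‖ = 1
  junk : ∃ jv : (Rg → Fin q) → ℂ,
    (∀ σ σ', (∀ r, r ∉ Set.range ι → σ r = σ' r) → jv σ = jv σ') ∧
    ∀ σ, tgt σ = φ (fun z => σ (ι z)) * jv σ
  close : ‖run g ψ₀ n - tgt‖ ≤ ε

/-- Compression lemma. -/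
def CLStmt : Prop :=
  ∀ (q : ℕ) (Λ Pa : Type) [Fintype Λ] [DecidableEq Λ] [Fintype Pa] [DecidableEq Pa]
    (φ : Vec Λ q) (n B ℓ κ D k : ℕ) (fin : Λ → Pa) (I : ℕ → Finset Pa) (ε : ℝ),
    ‖φ‖ = 1 → Nonempty (Net q Λ Pa φ n B ℓ fin I ε) → 0 < ε → ε ≤ 1 / 100 →
    (∀ t < n, (I t).Nonempty ∧ (I t).card ≤ κ) →
    (∀ p, ((Finset.range n).filter fun t => p ∈ I t).card ≤ κ) →
    (∀ p, q ^ (Finset.univ.filter fun z => fin z = p).card ≤ D) →
    1 ≤ k → 4 * ℓ ≤ k →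
    (n : ℝ) * (B : ℝ) ^ (2 * κ ^ 2) * (D : ℝ) ^ κ * Real.sqrt (4 * ℓ / k) ≤ ε →
    ∃ Φ : Vec Λ q, PartyForm n ((B * k ^ (2 * ℓ)) ^ 2) fin I Φ ∧ Near Φ φ (100 * ε)

/-- Routes for the labels of the gates and for the outputs of the parties on the `L × L` grid. -/
structure Routes (L : ℕ) (Pa : Type) [Fintype Pa] [DecidableEq Pa] (n κ : ℕ)
    (fin : Fin L × Fin L → Pa) (I : ℕ → Finset Pa) where
  loc : Pa → Fin L × Fin L
  rg : ℕ → Finset (Fin L × Fin L)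
  rp : Pa → Finset (Fin L × Fin L)
  conn_g : ∀ t < n, ((gridGraph L).induce (rg t : Set (Fin L × Fin L))).Connected
  conn_p : ∀ z, ((gridGraph L).induce (rp (fin z) : Set (Fin L × Fin L))).Connected
  mem_g : ∀ t < n, ∀ p ∈ I t, loc p ∈ rg t
  mem_p : ∀ z, loc (fin z) ∈ rp (fin z)
  mem_fin : ∀ z, z ∈ rp (fin z)
  cong : ∀ z, ((Finset.range n).filter fun t => z ∈ rg t).card +
    ((Finset.univ.image fin).filter fun p => z ∈ rp p).card ≤ κ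

/-- Routing lemma. -/
def RTStmt : Prop :=
  ∀ (q L : ℕ) (Pa : Type) [Fintype Pa] [DecidableEq Pa] (n κ V : ℕ) (fin : Fin L × Fin L → Pa)
    (I : ℕ → Finset Pa) (Φ : Vec (Fin L × Fin L) q), 1 ≤ V → Nonempty (Routes L Pa n κ fin I) →
    (∀ p, q ^ (Finset.univ.filter fun z => fin z = p).card ≤ V) →
    PartyForm n V fin I Φ →
    ∃ T : Fin L × Fin L → Fin q → Fin (V ^ κ) → Fin (V ^ κ) → Fin (V ^ κ) → Fin (V ^ κ) → ℂ,
      pepsVector L (V ^ κ) q T = Φ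

/-! ## Combinatorial plans -/

section plans

variable {Λ Pa : Type} [Fintype Λ] [DecidableEq Λ] [DecidableEq Pa]

/-- An encoded hole: inner set, outer set, owner of the tag. -/
@[ext] structure Hole (Λ Pa : Type) where
  I : Finset Λ
  O : Finset Λ
  tg : Pa
  deriving DecidableEq

/-- A patch: inner set, outer set, pair of the effect, pair of the source. -/
structure Patch (Λ Pa : Type) where
  I : Finset Λ
  O : Finset Λ
  pin : Pa × Pa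
  pout : Pa × Pa

/-- Membership in a pair. -/
def Mem (p : Pa) (P : Pa × Pa) : Prop := p = P.1 ∨ p = P.2

/-- Two pairs have a common member. -/
def Meet (P P' : Pa × Pa) : Prop := ∃ p, Mem p P ∧ Mem p P'

/-- Combinatorial state: colouring and live holes. -/
structure CSt (Λ Pa : Type) where
  col : Λ → Pa
  H : Finset (Hole Λ Pa)

/-- Exchange move (birth or death): `u` owns the buffer, `A` goes to `p`, the old content of `A`
(with its holes) becomes junk. -/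
def ExchMove (Ex : Finset Λ → Finset Λ → Prop) (I : Finset Pa) (s s' : CSt Λ Pa) : Prop :=
  ∃ (A F : Finset Λ) (u p : Pa), Disjoint A F ∧ Ex A F ∧ u ∈ I ∧ p ∈ I ∧
    (∀ z, z ∉ A → z ∉ F → s.col z = u) ∧ (∀ v ∈ s.H, v.O ⊆ A ∨ v.O ⊆ F) ∧
    (∀ z, s'.col z = if z ∈ A then p else s.col z) ∧ s'.H = s.H.filter fun v => v.O ⊆ F

/-- Paint move: decode the holes `old` (source pairs `pr`), apply the patches `cells` in order,
encode the holes `new` (effect pairs `pr'`). -/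
def PaintMove (Pt : Finset Λ → Finset Λ → Prop) (ℓ : ℕ) (I : Finset Pa) (s s' : CSt Λ Pa) : Prop :=
  ∃ (old new : Finset (Hole Λ Pa)) (pr pr' : Hole Λ Pa → Pa × Pa) (cells : List (Patch Λ Pa)),
    old ⊆ s.H ∧ s'.H = (s.H \ old) ∪ new ∧ Disjoint (s.H \ old) new ∧
    old.card + cells.length + new.card ≤ ℓ ∧
    -- analytic input and parties
    (∀ κ ∈ cells, Pt κ.I κ.O ∧ κ.pin.1 ∈ I ∧ κ.pin.2 ∈ I ∧ κ.pout.1 ∈ I ∧ κ.pout.2 ∈ I) ∧
    (∀ w ∈ new, Pt w.I w.O ∧ (pr' w).1 ∈ I ∧ (pr' w).2 ∈ I ∧ w.tg ∈ I ∧ ∀ z ∈ w.O, s'.col z ∈ I) ∧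
    (∀ v ∈ old, (pr v).1 ∈ I ∧ (pr v).2 ∈ I ∧ v.tg ∈ I ∧ ∀ z ∈ v.O, s.col z ∈ I) ∧
    -- disjointness from the holes that stay, and of the new holes
    (∀ v ∈ s.H \ old, (∀ κ ∈ cells, Disjoint v.O κ.O) ∧ ∀ w ∈ new, Disjoint v.O w.O) ∧
    (∀ w ∈ new, ∀ w' ∈ new, w ≠ w' → Disjoint w.O w'.O) ∧
    -- input is read by a compatible effect or keeps its colour
    (∀ κ ∈ cells, ∀ z ∈ κ.O, (∀ v ∈ old, z ∉ v.I) → Mem (s.col z) κ.pin) ∧
    (∀ w ∈ new, ∀ z ∈ w.O, (∀ κ ∈ cells, z ∉ κ.I) → Mem (s.col z) (pr' w)) ∧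
    (∀ z, (∀ κ ∈ cells, z ∉ κ.I) → (∀ w ∈ new, z ∉ w.I) → s'.col z = s.col z) ∧
    -- decoded holes are rewritten by compatible patches
    (∀ v ∈ old, (∀ z ∈ v.O, ∃ κ ∈ cells, z ∈ κ.I) ∧
      ∀ κ ∈ cells, ¬ Disjoint v.O κ.O → Meet (pr v) κ.pin) ∧
    -- patch to patch, patch to new hole, patch to output
    cells.Pairwise (fun κ κ' => ¬ Disjoint κ.O κ'.O → Meet κ.pout κ'.pin) ∧
    (∀ κ ∈ cells, ∀ w ∈ new, ¬ Disjoint κ.O w.O → Meet κ.pout (pr' w)) ∧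
    (∀ κ ∈ cells, ∀ z ∈ κ.O, (∀ w ∈ new, z ∉ w.I) → Mem (s'.col z) κ.pout)

/-- Final decoding of a small hole (at most `d` sites). -/
def FinMove (d : ℕ) (I : Finset Pa) (s s' : CSt Λ Pa) : Prop :=
  ∃ v ∈ s.H, v.O.card ≤ d ∧ v.tg ∈ I ∧ (∀ z ∈ v.O, s.col z ∈ I) ∧
    s'.col = s.col ∧ s'.H = s.H.erase v

/-- A plan of `n` moves from the one-colour state to a state without holes. -/
structure Plan (Λ Pa : Type) [Fintype Λ] [DecidableEq Λ] [DecidableEq Pa]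
    (Ex Pt : Finset Λ → Finset Λ → Prop) (n ℓ d : ℕ) (fin : Λ → Pa) (I : ℕ → Finset Pa) where
  st : ℕ → CSt Λ Pa
  root : Pa
  col₀ : ∀ z, (st 0).col z = root
  H₀ : (st 0).H = ∅
  move : ∀ t < n, ExchMove Ex (I t) (st t) (st (t + 1)) ∨ PaintMove Pt ℓ (I t) (st t) (st (t + 1)) ∨
    FinMove d (I t) (st t) (st (t + 1))
  colₙ : (st n).col = fin
  Hₙ : (st n).H = ∅

end plans

/-- A patch family between the inner set `I` and the outer set `O`. -/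
def PatchFam {Λ : Type} [Fintype Λ] [DecidableEq Λ] {q : ℕ} (Ω : Vec Λ q) (B : ℕ) (ε : ℝ)
    (I O : Finset Λ) : Prop :=
  ∃ (nb : ℕ) (A : Fin nb → Finset Λ) (a : ∀ α, (↥(A α) → Fin q) → ℂ), nb ≤ B ∧
    (∀ α, I ⊆ A α ∧ A α ⊆ O) ∧ (∀ α, ∑ σ, ‖a α σ‖ ^ 2 = 1) ∧
    (∀ α β, α ≠ β → rk1 (A α) (a α) (a α) * rk1 (A β) (a β) (a β) = 0) ∧
    ‖act (∑ α, rk1 (A α) (a α) (a α)) Ω - Ω‖ ≤ ε

/-- Soundness: a plan gives a gate network. -/
def SoundStmt : Prop :=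
  ∀ (q : ℕ) (Λ Pa : Type) [Fintype Λ] [DecidableEq Λ] [Fintype Pa] [DecidableEq Pa]
    (Ω : Vec Λ q) (B n ℓ d : ℕ) (ε : ℝ) (fin : Λ → Pa) (I : ℕ → Finset Pa),
    2 ≤ q → ‖Ω‖ = 1 → 1 ≤ B → 1 ≤ ℓ → 0 ≤ ε → 4 * (n * ℓ + 1) * ε ≤ 1 →
    Nonempty (Plan Λ Pa (fun A F => Exch Ω A F ε) (PatchFam Ω B ε) n ℓ d fin I) →
    Nonempty (Net q Λ Pa Ω n (B ^ ℓ * q ^ d) (2 * ℓ) fin I (4 * (n * ℓ) * ε))

/-! ## Geometry -/

/-- Sites whose position lies in the half-open square `[x, x + w) × [y, y + w)`. -/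
def sq {Λ : Type} [Fintype Λ] (pos : Λ → ℤ × ℤ) (x y w : ℤ) : Finset Λ :=
  Finset.univ.filter fun a => x ≤ (pos a).1 ∧ (pos a).1 < x + w ∧ y ≤ (pos a).2 ∧ (pos a).2 < y + w

/-- Sup-distance in `ℤ²`. -/
def sd (z w : ℤ × ℤ) : ℤ := max |z.1 - w.1| |z.2 - w.2|

/-- Cone data: apex set `Z`, `gam` = sup-distance to `Z`, and a `K`-Lipschitz function `f` whose
relative level sets `f - max gam ℓ = k` (inside `f > 0`) have at most `K (r + 1)` points at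
distance `≤ r` from `Z`. -/
structure Cone (K ℓ : ℕ) where
  Z : Finset (ℤ × ℤ)
  gam : ℤ × ℤ → ℤ
  f : ℤ × ℤ → ℤ
  card : Z.card ≤ K
  gam_le : ∀ z, ∀ p ∈ Z, gam z ≤ sd z p
  gam_eq : ∀ z, ∃ p ∈ Z, gam z = sd z p
  lip : ∀ z w : ℤ × ℤ, |z.1 - w.1| ≤ 1 → |z.2 - w.2| ≤ 1 → f z ≤ f w + K
  lev : ∀ (r : ℕ) (k : ℤ) (T : Finset (ℤ × ℤ)),
    (∀ z ∈ T, gam z ≤ r ∧ 0 < f z ∧ f z - max (gam z) ℓ = k) → T.card ≤ K * (r + 1)

/-- The exchanged region of a cone. -/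
def Cone.A {K ℓ : ℕ} (c : Cone K ℓ) {Λ : Type} [Fintype Λ] (pos : Λ → ℤ × ℤ) : Finset Λ :=
  Finset.univ.filter fun a => max (c.gam (pos a)) ℓ ≤ c.f (pos a)

/-- The far region of a cone. -/
def Cone.F {K ℓ : ℕ} (c : Cone K ℓ) {Λ : Type} [Fintype Λ] (pos : Λ → ℤ × ℤ) : Finset Λ :=
  Finset.univ.filter fun a => c.f (pos a) ≤ 0

/-- Cone decoupling (from Ent, Core, Amp, Area). -/
def VWStmt : Prop :=
  ∀ (q R : ℕ) (J Δ : ℝ) (K : ℕ), 1 ≤ q → 0 < J → 0 < Δ → ∃ c C : ℝ, 0 < c ∧ 0 < C ∧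
    ∀ (Λ : Type) [Fintype Λ] [DecidableEq Λ] (s : Sys q R J Δ Λ) (ℓ : ℕ) (cn : Cone K ℓ),
      C * Real.log (Fintype.card Λ + 2) ≤ ℓ →
      Exch s.Ω (cn.A s.pos) (cn.F s.pos) (Real.exp (-(c * ℓ)))

/-- Patch families for squares (from Patch, Area). -/
def PtStmt : Prop :=
  ∀ (q : ℕ) (J Δ : ℝ), 1 ≤ q → 0 < J → 0 < Δ → ∃ c C : ℝ, 0 < c ∧ 0 < C ∧
    ∀ (Λ : Type) [Fintype Λ] [DecidableEq Λ] (s : Sys q 1 J Δ Λ) (η w B : ℕ) (x y : ℤ) (t : ℝ),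
      1 ≤ η → w ≤ 30 * η → 1 ≤ t → η * Real.exp (C * (η + t)) ≤ B →
      PatchFam s.Ω B (Real.exp (-(c * t))) (sq s.pos x y w) (sq s.pos (x - η) (y - η) (w + 2 * η))

/-- Positions on the grid. -/
def gpos (L : ℕ) (z : Fin L × Fin L) : ℤ × ℤ := ((z.1 : ℕ), (z.2 : ℕ))

/-- The painter schedule: a valid plan with routes exists. -/
def GeoStmt : Prop :=
  ∃ K : ℕ, 1 ≤ K ∧ ∀ (L i₁ : ℕ) (Ex Pt : Finset (Fin L × Fin L) → Finset (Fin L × Fin L) → Prop),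
    K * 2 ^ i₁ ≤ L →
    (∀ (i w : ℕ) (x y : ℤ), i ≤ i₁ → w ≤ 30 * 2 ^ i →
      Pt (sq (gpos L) x y w) (sq (gpos L) (x - (2 ^ i : ℕ)) (y - (2 ^ i : ℕ)) (w + 2 * (2 ^ i : ℕ)))) →
    (∀ (ℓ : ℕ) (cn : Cone K ℓ), 2 ^ i₁ ≤ ℓ → Ex (cn.A (gpos L)) (cn.F (gpos L))) →
    ∃ (Pa : Type) (_ : Fintype Pa) (_ : DecidableEq Pa) (n : ℕ) (fin : Fin L × Fin L → Pa)
      (I : ℕ → Finset Pa), n ≤ K * L ^ 3 ∧ Nonempty (Plan (Fin L × Fin L) Pa Ex Pt n K K fin I) ∧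
      (∀ t < n, (I t).Nonempty ∧ (I t).card ≤ K) ∧
      (∀ p, ((Finset.range n).filter fun t => p ∈ I t).card ≤ K) ∧
      (∀ p, (Finset.univ.filter fun z => fin z = p).card ≤ K) ∧
      Nonempty (Routes L Pa n K fin I)

end Crest.Agent.N336.P
private theorem rz_b60a6faf61 : type_of% @_root_.Crest.Agent.N336.P.opOf.eq_def := @_root_.Crest.Agent.N336.P.opOf.eq_def -- L52
private theorem rz_6769b07c6b : type_of% @_root_.Crest.Agent.N336.P.opOf.eq_1 := @_root_.Crest.Agent.N336.P.opOf.eq_1 -- L52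
private theorem rz_f0f890769e : type_of% @_root_.Crest.Agent.N336.P.run.eq_def := @_root_.Crest.Agent.N336.P.run.eq_def -- L70
private theorem rz_9d40118c07 : type_of% @_root_.Crest.Agent.N336.P.run.eq_1 := @_root_.Crest.Agent.N336.P.run.eq_1 -- L70
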