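import Crest.Agent.N336.C.SV
import Crest.Agent.N336.A.Defs
import Crest.Agent.N336.A.Geo
import Crest.Agent.N336.A.Loc
import Crest.Agent.N336.Q.EntM
import Crest.Agent.N336.Q.EntMain
import Crest.Agent.N336.Area.Col
import Crest.Agent.N336.P.Defs

-- ▼ part N336/C/Lsc
section

/-!
# Row 336, CORE: lower semicontinuity of the mutual information (helper82)
-/

set_option autoImplicit false
set_option linter.unusedSectionVars false

open Matrix Finset
open scoped ComplexOrder MatrixOrder Matrix.Norms.L2Operator InnerProductSpace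

namespace Crest.Agent.N336.C

open Crest.Agent.N336.Q Crest.Agent.N336.Eng

section proj

variable {n : Type} [Fintype n] [DecidableEq n]

lemma refl_unitary {T : Matrix n n ℂ} (hT : T.IsHermitian) (h : T * T = T) :
    (T + T - 1)ᴴ * (T + T - 1) = 1 := by
  rw [conjTranspose_sub, conjTranspose_add, hT.eq, conjTranspose_one]
  simp only [Matrix.sub_mul, Matrix.mul_sub, Matrix.add_mul, Matrix.mul_add, h, Matrix.one_mul,
    Matrix.mul_one]
  abel

lemma norm_ap_proj_le {T : Matrix n n ℂ} (hT : T.IsHermitian) (h : T * T = T) (v : Q.Vec n) :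
    ‖ap T v‖ ≤ ‖v‖ := by
  have h1 := norm_ap_unitary (refl_unitary hT h) v
  have h2 : ap T v + ap T v = ap (T + T - 1) v + v := by
    rw [ap_sub, ap_add, ap_one]; abel
  have h3 := norm_add_le (ap (T + T - 1) v) v
  rw [← h2, ← two_smul ℝ, norm_smul, h1] at h3
  norm_num at h3
  linarith

lemma pj_add_pj (u v : Q.Vec n) :
    pj u + pj v = ((1 / 2 : ℝ) : ℂ) • pj (u + v) + ((1 / 2 : ℝ) : ℂ) • pj (u - v) := by
  simp only [pj, kb_add_left, kb_add_right, kb_sub_left, kb_sub_right]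
  push_cast
  module

/-- normalising a vector close to a unit vector -/
lemma norm_normalize_sub {u w : Q.Vec n} (hu : ‖u‖ ≤ 1) (hu0 : u ≠ 0) (hw : ‖w‖ = 1) {ε : ℝ}
    (h : ‖u - w‖ ≤ ε) : ‖((‖u‖⁻¹ : ℝ) : ℂ) • u - w‖ ≤ 2 * ε := by
  have hp : 0 < ‖u‖ := norm_pos_iff.2 hu0
  have h1 : ‖w‖ - ‖u‖ ≤ ε := by
    have := norm_sub_norm_le w u
    rw [norm_sub_rev] at this; linarith
  have h2 : ((‖u‖⁻¹ : ℝ) : ℂ) • u - u = ((‖u‖⁻¹ - 1 : ℝ) : ℂ) • u := by
    rw [Complex.ofReal_sub, sub_smul]; simp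
  have h3 : ‖((‖u‖⁻¹ : ℝ) : ℂ) • u - u‖ = 1 - ‖u‖ := by
    rw [h2, norm_smul, Complex.norm_real, Real.norm_of_nonneg
      (sub_nonneg.2 ((one_le_inv₀ hp).2 hu))]
    field_simp
  calc _ ≤ ‖((‖u‖⁻¹ : ℝ) : ℂ) • u - u‖ + ‖u - w‖ := norm_sub_le_norm_sub_add_norm_sub _ _ _
    _ ≤ _ := by rw [h3]; linarith

lemma norm_normalize {u : Q.Vec n} (hu0 : u ≠ 0) : ‖((‖u‖⁻¹ : ℝ) : ℂ) • u‖ = 1 := by
  have hp : 0 < ‖u‖ := norm_pos_iff.2 hu0
  rw [norm_smul, Complex.norm_real, Real.norm_of_nonneg (by positivity), inv_mul_cancel₀ hp.ne']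

end proj

variable {ι : Type} [Fintype ι] [DecidableEq ι] {d : ι → Type} [∀ x, Fintype (d x)]
  [∀ x, DecidableEq (d x)] [∀ x, Nonempty (d x)]

/-- pinching by a reflection on `A` does not increase the mutual information -/
lemma pinch_le {A F : Finset ι} (hd : Disjoint A F) {U : Q.Op d} (hU : Supp A U)
    (h : Uᴴ * U = 1) (χ : Q.Vec (Cfg d)) {ω : Q.Op d}
    (hω : ω = ((1 / 2 : ℝ) : ℂ) • pj χ + ((1 / 2 : ℝ) : ℂ) • pj (ap U χ)) :
    SX A ω + SX F ω - SX (A ∪ F) ω ≤ mi χ A F := by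
  have hF : Supp Fᶜ U := hU.mono (subset_compl_iff_disjoint_right.2 hd)
  have h1 : SX F ω = SV χ F := by
    rw [SV_eq, SX, SX, hω, red_add, red_smul, red_smul, pj_ap,
      red_conj_unitary (by rwa [rg_sb]) h, ← add_smul]
    norm_num
  have h2 := cond_mix_le (univ : Finset (Fin 2)) (subset_union_left : A ⊆ A ∪ F)
    (p := fun _ => 1 / 2) (ρ := ![pj χ, pj (ap U χ)]) (fun _ _ => by norm_num)
    (fun k _ => by fin_cases k <;> exact pj_posSemidef _)
  simp only [Fin.sum_univ_two, Matrix.cons_val_zero, Matrix.cons_val_one] at h2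
  rw [← hω, ← SV_eq, ← SV_eq, ← SV_eq, ← SV_eq, SV_ap_in hU h,
    SV_ap_in (hU.mono subset_union_left) h] at h2
  unfold mi; linarith

/-- the mutual information of a sum of two pure terms -/
lemma le_mix {A F : Finset ι} (hd : Disjoint A F) {u v : Q.Vec (Cfg d)} (hω : Dens (pj u + pj v)) :
    (SX A (pj u) + SX F (pj u) - SX (A ∪ F) (pj u) - SX ∅ (pj u)) - 2 ≤
      SX A (pj u + pj v) + SX F (pj u + pj v) - SX (A ∪ F) (pj u + pj v) := by
  have p : ∀ k ∈ (univ : Finset (Fin 2)), (![pj u, pj v] k).PosSemidef := by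
    intro k _; fin_cases k <;> exact pj_posSemidef _
  have h1 := cond_sum_le univ (empty_subset A) p
  have h2 := cond_sum_le univ (empty_subset F) p
  have h3 := SX_sum_le univ (A ∪ F) p
  simp only [Fin.sum_univ_two, Matrix.cons_val_zero, Matrix.cons_val_one, hω.SX_empty] at h1 h2 h3
  have h4 := SX_submod A F (pj_posSemidef v)
  rw [disjoint_iff_inter_eq_empty.1 hd] at h4
  have k : ∀ w : Q.Vec (Cfg d), SX ∅ (pj w) ≤ 1 := fun w => by
    rw [SX_empty (pj_isHermitian w), trace_pj, Complex.ofReal_re]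
    have := Real.negMulLog_le_one_sub_self (sq_nonneg ‖w‖)
    nlinarith [sq_nonneg ‖w‖]
  linarith [k u, k v]

/-- **lower semicontinuity** -/
theorem lsc : LscStmt := by
  intro ι _ _ d _ _ _ A F P ρ ε χ χ' hd hP hPP hr hρ h h' k' he
  have hε : 0 ≤ ε := (norm_nonneg _).trans he
  have hm : ∀ ψ : Q.Vec (Cfg d), ‖ψ‖ = 1 → ap (lift A P) ψ = ψ → mi ψ A F ≤ 2 * ρ :=
    fun ψ hψ kψ => (mi_le hψ hd).trans (by linarith [SV_le_of_proj hP hPP hr hψ kψ])
  by_cases h10 : 1 / 10 ≤ ε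
  · have := hm χ' h' k'
    have := mi_nonneg h A F
    nlinarith
  push Not at h10
  set T : Q.Op d := lift A P with hT
  have hTh : T.IsHermitian := emb_isHermitian _ hP
  have hTT : T * T = T := by rw [hT, ← map_mul, hPP]
  have hTs : Supp A T := supp_lift A P
  set u := ap T χ with hu
  have hu1 : ‖u‖ ≤ 1 := h ▸ norm_ap_proj_le hTh hTT χ
  have hue : ‖u - χ'‖ ≤ ε := by
    rw [hu, ← k', ← map_sub]; exact (norm_ap_proj_le hTh hTT _).trans he
  have hul : 1 - ε ≤ ‖u‖ := by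
    have := norm_sub_norm_le χ' u
    rw [norm_sub_rev] at this; linarith
  have hp : 0 < ‖u‖ := by linarith
  have hu0 : u ≠ 0 := norm_pos_iff.1 hp
  set ψ := ((‖u‖⁻¹ : ℝ) : ℂ) • u with hψ
  have hψ1 : ‖ψ‖ = 1 := norm_normalize hu0
  have hψe : ‖ψ - χ'‖ ≤ 2 * ε := norm_normalize_sub hu1 hu0 h' hue
  have kψ : ap T ψ = ψ := by rw [hψ, map_smul, hu, ← ap_mul, hTT]
  -- pinching
  have hU := refl_unitary hTh hTT
  have e1 : u + (χ - u) = χ := by abel
  have e2 : u - (χ - u) = ap (T + T - 1) χ := by rw [ap_sub, ap_add, ap_one, ← hu]; abel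
  have hω := pj_add_pj u (χ - u)
  rw [e1, e2] at hω
  have hD : Dens (pj u + pj (χ - u)) := by
    refine ⟨(pj_posSemidef _).add (pj_posSemidef _), ?_⟩
    rw [hω, trace_add, trace_smul, trace_smul, trace_pj, trace_pj, norm_ap_unitary hU, h]
    norm_num
  have a1 := pinch_le hd ((hTs.add hTs).sub (Supp.one A)) hU χ hω
  have a2 := le_mix hd hD
  have e3 : pj u = ((‖u‖ ^ 2 : ℝ) : ℂ) • pj ψ := by
    rw [hψ, pj_smul, smul_smul, ← Complex.ofReal_mul, Complex.norm_real,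
      Real.norm_of_nonneg (by positivity), ← mul_pow, mul_inv_cancel₀ hp.ne']
    simp
  have a3 : SX A (pj u) + SX F (pj u) - SX (A ∪ F) (pj u) - SX ∅ (pj u) = ‖u‖ ^ 2 * mi ψ A F := by
    rw [e3]
    simp only [SX_smul _ _ (pj_isHermitian ψ), (dens_pj hψ1).SX_empty, mi, SV_eq]
    ring
  have b1 := hm ψ hψ1 kψ
  have b2 := mi_nonneg hψ1 A F
  have c1 := abs_le.1 (fannes_proj hP hPP hr hψ1 h' kψ k' hψe (by linarith))
  have c2 := abs_le.1 (fannes_rank hd hP hPP hr hψ1 h' kψ k' hψe (by linarith))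
  have hs : Real.sqrt (2 * ε) ≤ 1 := Real.sqrt_le_one.2 (by linarith)
  have b3 : mi ψ A F - 4 * ε * ρ ≤ ‖u‖ ^ 2 * mi ψ A F := by
    have : 1 - 2 * ε ≤ ‖u‖ ^ 2 := by nlinarith
    nlinarith [mul_le_mul_of_nonneg_right this b2, mul_le_mul_of_nonneg_left b1 hε]
  have b4 : mi χ' A F - 8 * ε * ρ - 8 ≤ mi ψ A F := by
    unfold mi; linarith [c1.1, c2.2]
  have : 0 ≤ ε * ρ := mul_nonneg hε hρ
  linarith

end Crest.Agent.N336.C
end

-- ▼ part N336/Q/Uhl
section

/-!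
# Row 336: polar decomposition, Powers-Størmer and Uhlmann (helper48)
-/

set_option autoImplicit false
set_option linter.unusedSectionVars false

open Matrix Finset
open scoped Kronecker ComplexOrder MatrixOrder Matrix.Norms.L2Operator InnerProductSpace

namespace Crest.Agent.N336.Q

variable {n m : Type} [Fintype n] [DecidableEq n] [Fintype m] [DecidableEq m]

/-- matrices with the same Gram matrix differ by a unitary -/
theorem exists_unitary_of_gram {A B : Matrix n n ℂ} (h : Aᴴ * A = Bᴴ * B) :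
    ∃ V : Matrix n n ℂ, Vᴴ * V = 1 ∧ V * Vᴴ = 1 ∧ A = V * B := by
  have hn : ∀ v, ‖ap A v‖ = ‖ap B v‖ := fun v =>
    (pow_left_inj₀ (norm_nonneg _) (norm_nonneg _) two_ne_zero).1 (by
      rw [norm_ap_sq, norm_ap_sq, h])
  let b : Vec n →ₗ[ℂ] Vec n := (ap B).toLinearMap
  obtain ⟨g, hg⟩ := b.rangeRestrict.exists_rightInverse_of_surjective b.range_rangeRestrict
  have hg' : ∀ y : b.range, ap B (g y) = y := fun y =>
    congrArg Subtype.val (LinearMap.congr_fun hg y)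
  let L : b.range →ₗᵢ[ℂ] Vec n :=
    { toLinearMap := (ap A).toLinearMap ∘ₗ g
      norm_map' := fun y => by
        change ‖ap A (g y)‖ = _
        rw [hn, hg']; rfl }
  obtain ⟨V, hV⟩ := (Matrix.toEuclideanCLM (𝕜 := ℂ) (n := n)).surjective
    L.extend.toContinuousLinearMap
  have hV' : ∀ v, ap V v = L.extend v := fun v => DFunLike.congr_fun hV v
  have h1 : Vᴴ * V = 1 := by
    apply (Matrix.toEuclideanCLM (𝕜 := ℂ) (n := n)).injective
    refine ContinuousLinearMap.ext fun v => ext_inner_left ℂ fun w => ?_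
    change ⟪w, ap (Vᴴ * V) v⟫_ℂ = ⟪w, ap 1 v⟫_ℂ
    rw [ap_mul, ← inner_ap_left, ap_one, hV', hV', LinearIsometry.inner_map_map]
  refine ⟨V, h1, mul_eq_one_comm.1 h1, ?_⟩
  apply (Matrix.toEuclideanCLM (𝕜 := ℂ) (n := n)).injective
  refine ContinuousLinearMap.ext fun v => ?_
  change ap A v = ap (V * B) v
  let y : b.range := ⟨ap B v, v, rfl⟩
  have h2 : L.extend (ap B v) = ap A (g y) := L.extend_apply y
  rw [ap_mul, hV', h2, ← sub_eq_zero, ← map_sub, ← norm_eq_zero, hn, map_sub, hg', sub_self,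
    norm_zero]

lemma fr_sqrt_mul_self {A : Matrix n n ℂ} (h : A.PosSemidef) :
    fr Real.sqrt A * fr Real.sqrt A = A := by
  conv_rhs => rw [← fc_id h.1]
  rw [fc_mul]
  exact fc_congr fun i => by rw [← Complex.ofReal_mul, Real.mul_self_sqrt (ev_nonneg h i)]

lemma fr_sqrt_posSemidef (A : Matrix n n ℂ) : (fr Real.sqrt A).PosSemidef :=
  fr_posSemidef fun _ => Real.sqrt_nonneg _

/-- polar decomposition -/
theorem exists_polar (M : Matrix n n ℂ) :
    ∃ V : Matrix n n ℂ, Vᴴ * V = 1 ∧ V * Vᴴ = 1 ∧ M = V * fr Real.sqrt (Mᴴ * M) :=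
  exists_unitary_of_gram (by
    rw [(fr_isHermitian _ _).eq, fr_sqrt_mul_self (posSemidef_conjTranspose_mul_self M)])

lemma re_trace_conjTranspose (M : Matrix n n ℂ) : (trace Mᴴ).re = (trace M).re := by
  rw [trace_conjTranspose]; rfl

lemma re_trace_mul_le {K D : Matrix n n ℂ} (hK : K.PosSemidef) (hD : D * Dᴴ ≤ 1) :
    (trace (K * D)).re ≤ (trace K).re := by
  have h1 := re_trace_mul_nonneg (posSemidef_self_mul_conjTranspose (1 - D)) hK
  have h2 := re_trace_mul_mono hD hK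
  have h3 : (trace (Dᴴ * K)).re = (trace (K * D)).re := by
    rw [← re_trace_conjTranspose, conjTranspose_mul, conjTranspose_conjTranspose, hK.1.eq]
  have h4 : (1 - D) * (1 - D)ᴴ * K = K - Dᴴ * K - D * K + D * Dᴴ * K := by
    rw [conjTranspose_sub, conjTranspose_one]; noncomm_ring
  rw [h4, trace_add, trace_sub, trace_sub, trace_mul_comm D K] at h1
  rw [Matrix.one_mul] at h2
  simp only [Complex.add_re, Complex.sub_re] at h1
  linarith

/-- Powers-Størmer -/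
theorem powers_stormer {A B : Matrix n n ℂ} (hA : A.PosSemidef) (hB : B.PosSemidef) :
    ∃ O : Matrix n n ℂ, O.IsHermitian ∧ ‖O‖ ≤ 1 ∧
      (trace ((A - B) * (A - B))).re ≤ (trace (O * (A * A))).re - (trace (O * (B * B))).re := by
  have hS : (A - B).IsHermitian := hA.1.sub hB.1
  set S := A - B with hS'
  let O := fr (fun x => if 0 ≤ x then 1 else -1) S
  let p := fr (fun x => max x 0) S
  let q := fr (fun x => max (-x) 0) S
  have hp : p.PosSemidef := fr_posSemidef fun _ => le_max_right _ _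
  have hq : q.PosSemidef := fr_posSemidef fun _ => le_max_right _ _
  have h1 : S = p - q := by
    conv_lhs => rw [← fc_id hS]
    rw [fc_sub]
    exact fc_congr fun i => by rw [← Complex.ofReal_sub, max_zero_sub_max_neg_zero_eq_self]
  have h2 : O * S = p + q := by
    conv_lhs => arg 2; rw [← fc_id hS]
    rw [fc_mul, fc_add]
    refine fc_congr fun i => ?_
    rw [← Complex.ofReal_mul, ← Complex.ofReal_add]
    congr 1
    beta_reduce
    split_ifs with h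
    · rw [max_eq_left h, max_eq_right (by linarith)]; ring
    · rw [max_eq_right (by linarith), max_eq_left (by linarith)]; ring
  have h3 : S * O = O * S := (commute_fc _ hS (Commute.refl S)).symm
  refine ⟨O, fr_isHermitian _ _, norm_fc_le zero_le_one fun i => by beta_reduce; split_ifs <;> simp,
    ?_⟩
  have h4 := re_trace_mul_nonneg hp hB
  have h5 := re_trace_mul_nonneg hq hA
  have e1 : 2 * (trace (O * (A * A)) - trace (O * (B * B))) = 2 * trace ((p + q) * (A + B)) := by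
    have : O * S * (A + B) + O * ((A + B) * S) =
        O * (A * A) - O * (B * B) + (O * (A * A) - O * (B * B)) := by
      rw [hS']; noncomm_ring
    have h6 := congrArg trace this
    have h7 : trace (O * ((A + B) * S)) = trace ((p + q) * (A + B)) := by
      rw [← Matrix.mul_assoc, trace_mul_cycle, h3, h2]
    rw [trace_add, h7, h2, trace_add, trace_sub] at h6
    linear_combination -h6
  have e2 : (p + q) * (A + B) = S * S + (p * B + p * B) + (q * A + q * A) := by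
    conv_rhs => arg 1; arg 1; arg 1; rw [h1]
    rw [hS']; noncomm_ring
  have e3 := congrArg Complex.re (mul_left_cancel₀ two_ne_zero e1)
  rw [e2] at e3
  simp only [trace_add, Complex.add_re, Complex.sub_re] at e3
  linarith

lemma exists_sqrt_factor (P : Matrix n m ℂ) : ∃ V : Matrix n m ℂ,
    P * Vᴴ = fr Real.sqrt (P * Pᴴ) ∧ V * Vᴴ ≤ 1 ∧ Vᴴ * V ≤ 1 := by
  have hr := posSemidef_self_mul_conjTranspose P
  set r := P * Pᴴ with hr'
  let g := fr (fun x => (Real.sqrt x)⁻¹) r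
  have hg : gᴴ = g := (fr_isHermitian _ _).eq
  have h1 : r * g = fr Real.sqrt r := by
    conv_lhs => arg 1; rw [← fc_id hr.1]
    rw [fc_mul]
    exact fc_congr fun i => by
      rw [← Complex.ofReal_mul, ← div_eq_mul_inv, Real.div_sqrt]
  have h2 : g * P * (g * P)ᴴ = fr (fun x => (Real.sqrt x)⁻¹ * Real.sqrt x) r := by
    rw [conjTranspose_mul, hg, Matrix.mul_assoc, ← Matrix.mul_assoc P, ← hr', h1, fc_mul]
    exact fc_congr fun i => by rw [← Complex.ofReal_mul]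
  have h3 : g * P * (g * P)ᴴ * g = g := by
    rw [h2, fc_mul]
    refine fc_congr fun i => ?_
    rw [← Complex.ofReal_mul]
    congr 1
    by_cases h : Real.sqrt (ev r i) = 0
    · simp [h]
    · simp only [inv_mul_cancel₀ h, one_mul]
  refine ⟨g * P, by rw [conjTranspose_mul, hg, ← Matrix.mul_assoc, h1], ?_, ?_⟩
  · rw [h2, ← fc_one r]
    exact fr_le_fr (k := fun _ => 1) fun i => inv_mul_le_one
  · have h4 : (g * P)ᴴ * (g * P) * ((g * P)ᴴ * (g * P)) = (g * P)ᴴ * (g * P) := by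
      conv_rhs => arg 2; rw [← h3]
      simp only [Matrix.mul_assoc]
    have h5 := posSemidef_conjTranspose_mul_self (1 - (g * P)ᴴ * (g * P))
    rw [conjTranspose_sub, conjTranspose_one, (isHermitian_conjTranspose_mul_self _).eq,
      Matrix.sub_mul, Matrix.mul_sub, Matrix.mul_sub, h4, Matrix.one_mul, Matrix.one_mul,
      Matrix.mul_one, sub_self, sub_zero] at h5
    exact h5

/-- Uhlmann's theorem together with the Powers-Størmer inequality, for matrices -/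
theorem uhl_mat (P F : Matrix n m ℂ) : ∃ (O : Matrix n n ℂ) (u : Matrix m m ℂ),
    O.IsHermitian ∧ ‖O‖ ≤ 1 ∧ uᴴ * u = 1 ∧ u * uᴴ = 1 ∧
      (trace ((P * u - F) * (P * u - F)ᴴ)).re ≤
        (trace (O * (P * Pᴴ))).re - (trace (O * (F * Fᴴ))).re := by
  obtain ⟨O, hO, hO1, hPS⟩ := powers_stormer (fr_sqrt_posSemidef (P * Pᴴ))
    (fr_sqrt_posSemidef (F * Fᴴ))
  obtain ⟨V, hV, -, hV2⟩ := exists_sqrt_factor P
  obtain ⟨W, hW, hW1, -⟩ := exists_sqrt_factor F
  obtain ⟨U, hU1, hU2, hU⟩ := exists_polar (Fᴴ * P)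
  have hK := fr_sqrt_posSemidef ((Fᴴ * P)ᴴ * (Fᴴ * P))
  set K := fr Real.sqrt ((Fᴴ * P)ᴴ * (Fᴴ * P))
  have hA := fr_sqrt_mul_self (posSemidef_self_mul_conjTranspose P)
  have hB := fr_sqrt_mul_self (posSemidef_self_mul_conjTranspose F)
  have hBh := (fr_isHermitian Real.sqrt (F * Fᴴ)).eq
  set A := fr Real.sqrt (P * Pᴴ)
  set B := fr Real.sqrt (F * Fᴴ)
  rw [hA, hB] at hPS
  refine ⟨O, Uᴴ, hO, hO1, by rwa [conjTranspose_conjTranspose], by rwa [conjTranspose_conjTranspose],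
    le_trans ?_ hPS⟩
  have hD : Vᴴ * W * U * (Vᴴ * W * U)ᴴ ≤ 1 := by
    refine le_trans ?_ hV2
    have h1 := (Matrix.le_iff.1 hW1).conjTranspose_mul_mul_same V
    rw [Matrix.le_iff]
    convert h1 using 1
    simp only [conjTranspose_mul, conjTranspose_conjTranspose, Matrix.mul_sub, Matrix.sub_mul,
      Matrix.mul_one, Matrix.mul_assoc]
    rw [← Matrix.mul_assoc U, hU2, Matrix.one_mul]
  have h1 := re_trace_mul_le hK hD
  have h2 : trace (A * B) = trace (K * (Vᴴ * W * U)) := by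
    rw [← hBh, ← hV, ← hW, conjTranspose_mul, conjTranspose_conjTranspose, ← Matrix.mul_assoc,
      trace_mul_comm, ← Matrix.mul_assoc, ← Matrix.mul_assoc, hU]
    conv_rhs => rw [← Matrix.mul_assoc, trace_mul_comm]
    simp only [Matrix.mul_assoc]
  have h3 : trace (P * Uᴴ * Fᴴ) = trace K := by
    rw [trace_mul_comm, ← Matrix.mul_assoc, hU, trace_mul_cycle, hU1, Matrix.one_mul]
  have h4 : (trace (F * (P * Uᴴ)ᴴ)).re = (trace K).re := by
    rw [← h3, ← re_trace_conjTranspose, conjTranspose_mul, conjTranspose_conjTranspose]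
  have h5 : P * Uᴴ * (P * Uᴴ)ᴴ = P * Pᴴ := by
    rw [conjTranspose_mul, conjTranspose_conjTranspose, Matrix.mul_assoc, ← Matrix.mul_assoc Uᴴ,
      hU1, Matrix.one_mul]
  rw [conjTranspose_sub]
  simp only [Matrix.sub_mul, Matrix.mul_sub, trace_sub, Complex.sub_re, h3, h4, h5, hA, hB,
    trace_mul_comm B A, h2]
  linarith

end Crest.Agent.N336.Q

namespace Crest.Agent.N336.A

open Crest.Agent.N336.Q

theorem uhl : UhlStmt := by
  intro ι _ _ d _ _ _ X ψ φ δ h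
  let e := sb X
  let mat : Q.Vec (Cfg d) → Matrix (Cfg (Q.sub e d)) (Rest (rg e) d) ℂ := fun v =>
    Matrix.of fun a c => v ((eqv e d).symm (a, c))
  have hred : ∀ v, red e (pj v) = mat v * (mat v)ᴴ := fun v => rfl
  have hin : ∀ (O : Q.Op (Q.sub e d)) v,
      ⟪v, ap (lift X O) v⟫_ℂ = trace (O * (mat v * (mat v)ᴴ)) := fun O v => by
    rw [← trace_mul_kb, ← hred]; exact trace_emb_mul e O _
  obtain ⟨O, u, hO, hO1, hu1, hu2, hle⟩ := uhl_mat (mat ψ) (mat φ)
  have h0 := h (lift X O) (supp_lift X O) (emb_isHermitian _ hO) ((norm_emb_le _ _).trans hO1)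
  rw [hin, hin] at h0
  let U : Q.Op d := ((1 : Q.Op (Q.sub e d)) ⊗ₖ uᵀ).submatrix (eqv e d) (eqv e d)
  have h1 : U * Uᴴ = 1 := by
    have : uᵀ * uᵀᴴ = 1 := by
      rw [show uᵀᴴ = uᴴᵀ from rfl, ← transpose_mul, hu1, transpose_one]
    simp only [U]
    rw [conjTranspose_submatrix, submatrix_mul_equiv, conjTranspose_kronecker,
      ← mul_kronecker_mul, this]
    simp
  refine ⟨U, ⟨fun σ τ h => ?_, fun σ τ σ' τ' h h' h2 h3 => ?_⟩, mul_eq_one_comm.1 h1, h1, ?_⟩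
  · have : res e σ ≠ res e τ := fun h2 => h fun x hx =>
      res_eq_iff.1 h2 x (by simpa [e] using hx)
    simp [U, this]
  · have e1 : res e σ = res e τ := res_eq_iff.2 fun x hx => h x (by simpa [e] using hx)
    have e2 : res e σ' = res e τ' := res_eq_iff.2 fun x hx => h' x (by simpa [e] using hx)
    have e3 : off (rg e) σ = off (rg e) σ' :=
      off_eq_iff.2 fun x hx => h2 x (by simpa [e] using hx)
    have e4 : off (rg e) τ = off (rg e) τ' :=
      off_eq_iff.2 fun x hx => h3 x (by simpa [e] using hx)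
    simp [U, e1, e2, e3, e4]
  · have h2 : mat (ap U ψ - φ) = mat ψ * u - mat φ := by
      ext a c
      simp only [mat, of_apply, PiLp.sub_apply, Matrix.sub_apply, ap_apply, mul_apply, U,
        submatrix_apply, Equiv.apply_symm_apply]
      rw [← Equiv.sum_comp (eqv e d).symm, Fintype.sum_prod_type]
      simp [one_apply, mul_comm]
    have h3 := hin 1 (ap U ψ - φ)
    rw [map_one, ap_one, Matrix.one_mul, h2, inner_self_eq_norm_sq_to_K] at h3
    have h4 : ‖ap U ψ - φ‖ ^ 2 = (trace ((mat ψ * u - mat φ) * (mat ψ * u - mat φ)ᴴ)).re := by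
      rw [← h3]; norm_cast
    linarith

end Crest.Agent.N336.A
end

-- ▼ part N336/A/Amp0
section

/-!
# Row 336, amplification: abstract tools (doubled gap, Hilbert-Schmidt bound)
-/

set_option autoImplicit false
set_option linter.unusedSectionVars false

open Matrix Finset
open scoped ComplexOrder MatrixOrder Matrix.Norms.L2Operator InnerProductSpace

namespace Crest.Agent.N336.A.Amp

open Crest.Agent.N336.Q

variable {n m : Type} [Fintype n] [DecidableEq n] [Fintype m] [DecidableEq m]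

lemma re_inner_pj (Ω ψ : Q.Vec n) : (⟪ψ, ap (pj Ω) ψ⟫_ℂ).re = ‖⟪Ω, ψ⟫_ℂ‖ ^ 2 := by
  rw [ap_kb, inner_smul_right, ← inner_conj_symm ψ Ω, Complex.mul_conj, Complex.ofReal_re,
    Complex.normSq_eq_norm_sq]

lemma re_inner_self' (ψ : Q.Vec n) : (⟪ψ, ψ⟫_ℂ).re = ‖ψ‖ ^ 2 := inner_self_eq_norm_sq (𝕜 := ℂ) ψ

lemma re_inner_gap (H P : Matrix n n ℂ) (E Δ : ℝ) (ψ : Q.Vec n) :
    (⟪ψ, ap (H - (E : ℂ) • 1 - (Δ : ℂ) • (1 - P)) ψ⟫_ℂ).re =
      (⟪ψ, ap H ψ⟫_ℂ).re - E * ‖ψ‖ ^ 2 - Δ * (‖ψ‖ ^ 2 - (⟪ψ, ap P ψ⟫_ℂ).re) := by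
  simp only [ap_sub, ap_smul, ap_one, inner_sub_right, inner_smul_right, Complex.sub_re,
    Complex.re_ofReal_mul, re_inner_self']

lemma Gap.psd {H : Matrix n n ℂ} {Ω : Q.Vec n} {E Δ : ℝ} (h : Gap H Ω E Δ) :
    (H - (E : ℂ) • 1 - (Δ : ℂ) • (1 - pj Ω)).PosSemidef := by
  refine posSemidef_of_re_inner ?_ fun v => ?_
  · refine (h.herm.sub (isHermitian_one.smul ?_)).sub
      ((isHermitian_one.sub (pj_isHermitian Ω)).smul ?_) <;> simp [IsSelfAdjoint]
  · rw [re_inner_gap, re_inner_pj]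
    linarith [h.gap v]

lemma pj_mul_self {Ω : Q.Vec n} (h : ‖Ω‖ = 1) : pj Ω * pj Ω = pj Ω := by
  rw [mul_kb, ap_kb, inner_self_eq_norm_sq_to_K, h]; simp

lemma ap_pj_self {Ω : Q.Vec n} (h : ‖Ω‖ = 1) : ap (pj Ω) Ω = Ω := by
  rw [ap_kb, inner_self_eq_norm_sq_to_K, h]; simp

/-- the gap of a sum of two commuting copies -/
lemma gap_double {H : Matrix n n ℂ} {Ω : Q.Vec n} {E Δ : ℝ} (h : Gap H Ω E Δ) (hΔ : 0 ≤ Δ)
    (φ₁ φ₂ : Matrix n n ℂ →⋆ₐ[ℂ] Matrix m m ℂ) (hc : ∀ a b, Commute (φ₁ a) (φ₂ b))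
    (hp₁ : ∀ a, a.PosSemidef → (φ₁ a).PosSemidef) (hp₂ : ∀ a, a.PosSemidef → (φ₂ a).PosSemidef)
    {ψ : Q.Vec m} (h1 : ‖ψ‖ = 1) (hψ : pj ψ = φ₁ (pj Ω) * φ₂ (pj Ω)) :
    Gap (φ₁ H + φ₂ H) ψ (2 * E) Δ := by
  have hH : H * pj Ω = (E : ℂ) • pj Ω := by rw [mul_kb, h.eig, kb_smul_left]
  have herm : ∀ (φ : Matrix n n ℂ →⋆ₐ[ℂ] Matrix m m ℂ) a, a.IsHermitian → (φ a).IsHermitian :=
    fun φ a ha => (map_star φ a).symm.trans (congrArg φ ha)
  refine ⟨(herm _ _ h.herm).add (herm _ _ h.herm), h1, ?_, fun v => ?_⟩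
  · have e1 : φ₁ H * pj ψ = (E : ℂ) • pj ψ := by
      rw [hψ, ← mul_assoc, ← map_mul, hH, map_smul, smul_mul_assoc]
    have e2 : φ₂ H * pj ψ = (E : ℂ) • pj ψ := by
      rw [hψ, (hc _ _).eq, ← mul_assoc, ← map_mul, hH, map_smul, smul_mul_assoc]
    rw [← ap_pj_self h1, ← ap_mul, add_mul, e1, e2, ← add_smul, ap_smul, ap_pj_self h1]
    congr 1
    push_cast; ring
  · have hq : (1 - pj Ω) * (1 - pj Ω) = 1 - pj Ω := by
      rw [sub_mul, mul_sub, mul_sub, pj_mul_self h.norm]; simp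
    have hq' : (1 - pj Ω).IsHermitian := isHermitian_one.sub (pj_isHermitian Ω)
    have h3 : (φ₁ (1 - pj Ω) * φ₂ (1 - pj Ω)).PosSemidef := by
      refine proj_posSemidef ?_ ?_
      · change (_ * _)ᴴ = _
        rw [conjTranspose_mul, herm _ _ hq', herm _ _ hq', (hc _ _).eq]
      · rw [(hc _ _).symm.mul_mul_mul_comm, ← map_mul, ← map_mul, hq]
    have h4 := ((hp₁ _ (Gap.psd h)).add (hp₂ _ (Gap.psd h))).add (posSemidef_real_smul hΔ h3)
    have h5 : φ₁ (H - (E : ℂ) • 1 - (Δ : ℂ) • (1 - pj Ω)) + φ₂ (H - (E : ℂ) • 1 - (Δ : ℂ) • (1 - pj Ω))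
        + (Δ : ℂ) • (φ₁ (1 - pj Ω) * φ₂ (1 - pj Ω)) =
        φ₁ H + φ₂ H - ((2 * E : ℝ) : ℂ) • 1 - (Δ : ℂ) • (1 - pj ψ) := by
      rw [hψ]
      simp only [map_sub, map_smul, map_one, sub_mul, mul_sub, one_mul, mul_one]
      push_cast
      module
    rw [h5] at h4
    have := re_inner_ap_nonneg h4 v
    rw [re_inner_gap, re_inner_pj] at this
    linarith

/-- a matrix as a vector -/
noncomputable def vec (M : Matrix n n ℂ) : Q.Vec (n × n) := WithLp.toLp 2 fun p => M p.1 p.2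

lemma inner_vec (M N : Matrix n n ℂ) : ⟪vec M, vec N⟫_ℂ = trace (Mᴴ * N) := by
  rw [inner_eq_sum, Fintype.sum_prod_type, Finset.sum_comm]
  simp [vec, trace, mul_apply]

/-- Cauchy-Schwarz for the trace form -/
lemma hs_cs {M N : Matrix n n ℂ} {a b : ℝ} (ha : 0 ≤ a) (hb : 0 ≤ b)
    (hM : (trace (Mᴴ * M)).re ≤ a ^ 2) (hN : (trace (Nᴴ * N)).re ≤ b ^ 2) :
    ‖trace (Mᴴ * N)‖ ≤ a * b := by
  rw [← inner_vec, re_inner_self'] at hM hN
  rw [← inner_vec]
  exact (norm_inner_le_norm _ _).trans (mul_le_mul (abs_le_of_sq_le_sq' hM ha).2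
    (abs_le_of_sq_le_sq' hN hb).2 (norm_nonneg _) ha)

/-- comparison of two expectation values through the overlap of the two states -/
lemma cmp {W r Y : Matrix n n ℂ} (hr : r.PosSemidef) (hY : Y.IsHermitian) {c c' D ε k : ℝ}
    (hD : 0 ≤ D) (hε : 0 ≤ ε) (h1 : (trace r).re ≤ D) (h2 : (trace (W * Wᴴ)).re ≤ D)
    (h3 : (trace ((Y - (c : ℂ) • 1) * (Y - (c : ℂ) • 1) * r)).re ≤ D * ε ^ 2)
    (h4 : (trace ((Y - (c' : ℂ) • 1) * (Y - (c' : ℂ) • 1) * (W * Wᴴ))).re ≤ D * ε ^ 2)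
    (hk : k ≤ (trace (Wᴴ * fr Real.sqrt r)).re) : |c - c'| * k ≤ 2 * (D * ε) := by
  set s := fr Real.sqrt r
  have hs : sᴴ = s := fr_isHermitian _ _
  have hss : s * s = r := fr_sqrt_mul_self hr
  have hh : ∀ x : ℝ, (Y - (x : ℂ) • 1)ᴴ = Y - (x : ℂ) • 1 := fun x => by
    rw [conjTranspose_sub, hY.eq, conjTranspose_smul, conjTranspose_one]; simp
  have hq := Real.sq_sqrt hD
  have hq0 := Real.sqrt_nonneg D
  have b1 : ‖trace (Wᴴ * ((Y - (c : ℂ) • 1) * s))‖ ≤ √D * (√D * ε) := by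
    refine hs_cs hq0 (by positivity) (by rw [hq, trace_mul_comm]; exact h2) ?_
    rw [mul_pow, hq, conjTranspose_mul, hh, hs, mul_assoc, trace_mul_comm, mul_assoc, mul_assoc,
      hss, ← mul_assoc]
    exact h3
  have b2 : ‖trace (((Y - (c' : ℂ) • 1) * W)ᴴ * s)‖ ≤ (√D * ε) * √D := by
    refine hs_cs (by positivity) hq0 ?_ (by rw [hq, hs, hss]; exact h1)
    rw [mul_pow, hq, conjTranspose_mul, hh, mul_assoc, trace_mul_comm, mul_assoc, mul_assoc,
      ← mul_assoc]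
    exact h4
  have e : trace (((Y - (c' : ℂ) • 1) * W)ᴴ * s) - trace (Wᴴ * ((Y - (c : ℂ) • 1) * s)) =
      ((c - c' : ℝ) : ℂ) * trace (Wᴴ * s) := by
    rw [conjTranspose_mul, hh]
    simp only [mul_sub, sub_mul, mul_smul_comm, smul_mul_assoc, mul_one, one_mul, trace_sub,
      trace_smul, mul_assoc, smul_eq_mul]
    push_cast; ring
  have b3 : |c - c'| * ‖trace (Wᴴ * s)‖ ≤ 2 * (D * ε) := by
    have := norm_sub_le_of_le b2 b1
    rw [e, norm_mul, Complex.norm_real, Real.norm_eq_abs] at this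
    nlinarith
  exact (mul_le_mul_of_nonneg_left (hk.trans (Complex.re_le_norm _)) (abs_nonneg _)).trans b3

end Crest.Agent.N336.A.Amp
end

-- ▼ part N336/A/AmpL
section

/-!
# Row 336, amplification, part (L): the local filter works in the doubled system
-/

set_option autoImplicit false
set_option linter.unusedSectionVars false

open Matrix Finset
open scoped ComplexOrder MatrixOrder Matrix.Norms.L2Operator InnerProductSpace

namespace Crest.Agent.N336.A.Amp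

open Crest.Agent.N336.Q

variable {q R : ℕ} {J Δ : ℝ} {Λ : Type} [Fintype Λ] [DecidableEq Λ]

/-- the sites whose grouped term lives inside `A'` or inside `F'` -/
noncomputable def good (s : Sys q R J Δ Λ) (A' F' : Finset Λ) : Finset Λ :=
  univ.filter fun v => ball s v R ⊆ A' ∨ ball s v R ⊆ F'

/-- the local filter -/
noncomputable def flt (s : Sys q R J Δ Λ) (A' F' : Finset Λ) (T : ℝ) (N : ℕ)
    (O : Q.Op fun _ : Λ => Fin q) : Q.Op fun _ : Λ => Fin q :=
  (Av (∑ v ∈ good s A' F', hv s v) T)^[N] O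

lemma herm_H0 (s : Sys q R J Δ Λ) (G : Finset Λ) : (∑ v ∈ G, hv s v).IsHermitian :=
  (conjTranspose_sum _ _).trans (Finset.sum_congr rfl fun v _ => hv_herm s v)

lemma flt_herm (s : Sys q R J Δ Λ) (A' F' : Finset Λ) (T : ℝ) (N : ℕ) {O : Q.Op fun _ : Λ => Fin q}
    (h : O.IsHermitian) : (flt s A' F' T N O).IsHermitian :=
  Av_iter_isHermitian (herm_H0 s _) T h N

lemma map_iter {n m : Type} [Fintype n] [DecidableEq n] [Fintype m] [DecidableEq m]
    (φ : Matrix n n ℂ →⋆ₐ[ℂ] Matrix m m ℂ) (H : Matrix n n ℂ) (T : ℝ) (N : ℕ) (X : Matrix n n ℂ) :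
    φ ((Av H T)^[N] X) = (Av (φ H) T)^[N] (φ X) := map_Av_iter φ.toAlgHom H T N X

lemma flt_supp (s : Sys q R J Δ Λ) (A' F' : Finset Λ) (T : ℝ) (N : ℕ) {O : Q.Op fun _ : Λ => Fin q}
    (h : Supp (A' ∪ F') O) : Supp (A' ∪ F') (flt s A' F' T N O) := by
  have h0 : Supp (A' ∪ F') (∑ v ∈ good s A' F', hv s v) := Supp.sum fun v hv => by
    refine (supp_hv s v).mono ?_
    rcases (mem_filter.1 hv).2 with h | h
    exacts [h.trans subset_union_left, h.trans subset_union_right]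
  obtain ⟨a, ha⟩ := h0.exists_lift
  obtain ⟨b, hb⟩ := h.exists_lift
  rw [flt, ← ha, ← hb, ← map_iter]
  exact supp_lift _ _

lemma xor_false_imp {a b : Bool} (h : false = xor a b) : a = b := by
  cases a <;> cases b <;> simp_all

/-- the filter lemma in the doubled system -/
theorem doubled [Nonempty (Fin q)] (s : Sys q R J Δ Λ) (hJ : 0 < J) (hΔ : 0 < Δ)
    {A F A' F' Z : Finset Λ} {w : ℕ} (hA : ∀ x ∈ A, ball s x w ⊆ A') (hF : ∀ x ∈ F, ball s x w ⊆ F')
    (hZA : ∀ x ∈ A', ∀ y ∈ A', x ∈ Z ↔ y ∈ Z) (hZF : ∀ x ∈ F', ∀ y ∈ F', x ∈ Z ↔ y ∈ Z)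
    (e : Bool → Λ ↪ Bool × Λ) (he : ∀ b x, e b x = (xor b (decide (x ∈ Z)), x))
    (s0 : Λ ↪ Bool × Λ) (hs0 : ∀ x, s0 x = (false, x))
    {ψ : Q.Vec (Cfg fun _ : Bool × Λ => Fin q)} (h1 : ‖ψ‖ = 1)
    (hψ : pj ψ = emb (e false) (pj s.Ω) * emb (e true) (pj s.Ω))
    {O : Q.Op fun _ : Λ => Fin q} (hO : Supp (A ∪ F) O) (hn : ‖O‖ ≤ 1) {w' N : ℕ} {T : ℝ}
    (hT : 0 < T) (hw : w' + 1 ≤ w / (2 * R + 1))
    (hN : Real.exp 2 * (2 * ((4 * R + 1) ^ 2 : ℕ) * gJ R J * (N * T)) ≤ w') :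
    ‖ap (emb (d := fun _ => Fin q) s0 (flt s A' F' T N O)) ψ -
      ⟪ψ, ap (emb (d := fun _ => Fin q) s0 O) ψ⟫_ℂ • ψ‖ ≤
      2 * (2 / (T * Δ)) ^ N + 2 * ((A ∪ F)ᶜ).card * ((w' + 1 : ℝ) ^ 2 * Real.exp (-w')) := by
  classical
  have hRw : R ≤ w := by
    have : 0 < w / (2 * R + 1) := by omega
    have := (Nat.div_pos_iff.1 this).2
    omega
  set O' : Q.Op fun _ : Bool × Λ => Fin q := emb (d := fun _ => Fin q) s0 O with hO'
  let h : Bool × Λ → Q.Op fun _ : Bool × Λ => Fin q :=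
    fun j => emb (d := fun _ => Fin q) (e j.1) (hv s j.2)
  let sp : Bool × Λ → Finset (Bool × Λ) := fun j => (ball s j.2 R).map (e j.1)
  have hsp : ∀ j, Supp (sp j) (h j) := fun j => (supp_hv s j.2).emb _
  have msp : ∀ j p, p ∈ sp j ↔ p.2 ∈ ball s j.2 R ∧ p.1 = xor j.1 (decide (p.2 ∈ Z)) := by
    rintro j ⟨b, x⟩
    simp only [sp, mem_map, he, Prod.mk.injEq]
    exact ⟨by rintro ⟨y, hy, rfl, rfl⟩; exact ⟨hy, rfl⟩, fun h => ⟨x, h.1, h.2.symm, rfl⟩⟩
  have ms0 : ∀ (Y : Finset Λ) p, p ∈ Y.map s0 ↔ p.2 ∈ Y ∧ p.1 = false := by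
    rintro Y ⟨b, x⟩
    simp only [mem_map, hs0, Prod.mk.injEq]
    exact ⟨by rintro ⟨y, hy, rfl, rfl⟩; exact ⟨hy, rfl⟩, fun h => ⟨x, h.1, h.2.symm, rfl⟩⟩
  have hsO : Supp ((A ∪ F).map s0) O' := hO.emb _
  have hsub : A ∪ F ⊆ A' ∪ F' := union_subset_union (fun x hx => hA x hx (mem_ball_self _ _ _))
    fun x hx => hF x hx (mem_ball_self _ _ _)
  let T₀ : Finset (Bool × Λ) := univ.filter fun j => j.2 ∈ good s A' F' ∧ j.1 = decide (j.2 ∈ Z)
  let V : Finset (Bool × Λ) := univ.filter fun j => j ∉ T₀ ∧ ¬ Disjoint (sp j) ((A' ∪ F').map s0)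
  have hgood : ∀ v ∈ good s A' F', ∀ x ∈ ball s v R, x ∈ A' ∪ F' ∧ (x ∈ Z ↔ v ∈ Z) := by
    intro v hv x hx
    rcases (mem_filter.1 hv).2 with h | h
    · exact ⟨mem_union_left _ (h hx), hZA _ (h hx) _ (h (mem_ball_self _ _ _))⟩
    · exact ⟨mem_union_right _ (h hx), hZF _ (h hx) _ (h (mem_ball_self _ _ _))⟩
  have hnear : ∀ x ∈ A ∪ F, ∀ v, x ∈ ball s v (w - R) → v ∈ good s A' F' ∧ (x ∈ Z ↔ v ∈ Z) := by
    intro x hx v hv
    have h2 : ball s v R ⊆ ball s x w := ball_sub_ball (ball_symm hv) (by omega)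
    rcases mem_union.1 hx with hx | hx
    · exact ⟨mem_filter.2 ⟨mem_univ _, Or.inl (h2.trans (hA x hx))⟩,
        hZA _ (hA x hx (mem_ball_self _ _ _)) _ (hA x hx (h2 (mem_ball_self _ _ _)))⟩
    · exact ⟨mem_filter.2 ⟨mem_univ _, Or.inr (h2.trans (hF x hx))⟩,
        hZF _ (hF x hx (mem_ball_self _ _ _)) _ (hF x hx (h2 (mem_ball_self _ _ _)))⟩
  have hcomm : ∀ a b, Commute (emb (d := fun _ => Fin q) (e false) a)
      (emb (d := fun _ => Fin q) (e true) b) := fun a b =>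
    (supp_emb _ a).commute (supp_emb _ b) (by
      rw [disjoint_left]
      intro p hp hp'
      obtain ⟨x, rfl⟩ := mem_rg.1 hp
      obtain ⟨y, hy⟩ := mem_rg.1 hp'
      rw [he, he, Prod.mk.injEq] at hy
      obtain ⟨hy, rfl⟩ := hy
      simp at hy)
  have hgap := gap_double (gap_sys s) hΔ.le (emb (d := fun _ => Fin q) (e false))
    (emb (d := fun _ => Fin q) (e true)) hcomm (fun a ha => emb_posSemidef _ ha)
    (fun a ha => emb_posSemidef _ ha) h1 hψ
  have hsum : ∑ j, h j = emb (d := fun _ => Fin q) (e false) (ham s) +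
      emb (d := fun _ => Fin q) (e true) (ham s) := by
    rw [Fintype.sum_prod_type, Fintype.sum_bool, ← sum_hv, map_sum, map_sum, add_comm]
  have hsum0 : ∑ j ∈ T₀, h j = emb (d := fun _ => Fin q) s0 (∑ v ∈ good s A' F', hv s v) := by
    rw [map_sum]
    refine Finset.sum_nbij' (fun j => j.2) (fun v => (decide (v ∈ Z), v))
      (fun j hj => (mem_filter.1 hj).2.1) (fun v hv => mem_filter.2 ⟨mem_univ _, hv, rfl⟩)
      (fun j hj => Prod.ext (mem_filter.1 hj).2.2.symm rfl) (fun _ _ => rfl) fun j hj => ?_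
    obtain ⟨hj, hb⟩ := (mem_filter.1 hj).2
    refine emb_congr (fun x hx => ?_) (supp_hv s j.2)
    rw [he, hs0, hb]
    simp [(hgood _ hj x hx).2]
  have hV : V.card ≤ 2 * ((A ∪ F)ᶜ).card := by
    have : V ⊆ (univ : Finset Bool) ×ˢ (A ∪ F)ᶜ := by
      intro j hj
      obtain ⟨hj, hd⟩ := (mem_filter.1 hj).2
      refine mem_product.2 ⟨mem_univ _, mem_compl.2 fun hv => hd ?_⟩
      have hg := (hnear _ hv _ (mem_ball_self _ _ _)).1
      rw [disjoint_left]
      intro p hp hp'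
      obtain ⟨hp, hb⟩ := (msp j p).1 hp
      rw [((ms0 _ p).1 hp').2] at hb
      refine hj (mem_filter.2 ⟨mem_univ _, hg, ?_⟩)
      rw [← decide_eq_decide.2 (hgood _ hg _ hp).2]
      exact xor_false_imp hb
    simpa using card_le_card this
  let Zb : Bool → Finset Λ := fun b => (A ∪ F).filter fun x => decide (x ∈ Z) = b
  have hloc := loc _ (Bool × Λ) h (gJ R J) (fun j => {j.1} ×ˢ ball s j.2 (2 * R)) ((4 * R + 1) ^ 2)
    (fun j => hop s (Zb j.1) (w - R) j.2) O' T₀ V w' N T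
    (fun j => emb_isHermitian _ (hv_herm s _)) (fun j => (norm_emb_le _ _).trans (norm_hv_le s _))
    (gJ_pos R hJ) (Nat.one_le_pow _ _ (Nat.succ_pos _))
    (fun j => by simpa using card_ball_two s j.2) ?_ ?_ ?_ ?_ ?_ hT hN
  · have hgf := (gf _ _ _ _ _ T hgap hΔ hT O' N).2
    have hO1 : ‖O'‖ ≤ 1 := (norm_emb_le _ _).trans hn
    rw [hsum, hsum0, hO', ← map_iter, ← hO'] at hloc
    set X := (Av (emb (d := fun _ => Fin q) (e false) (ham s) +
      emb (d := fun _ => Fin q) (e true) (ham s)) T)^[N] O'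
    have b1 : ‖ap O' ψ - ⟪ψ, ap O' ψ⟫_ℂ • ψ‖ ≤ 2 := by
      have b2 : ‖ap O' ψ‖ ≤ 1 := (norm_ap_le _ _).trans (by rw [h1, mul_one]; exact hO1)
      have b3 := norm_inner_ap_le O' ψ ψ
      refine (norm_sub_le _ _).trans ?_
      rw [norm_smul, h1] at *
      linarith
    have b4 : ‖ap (emb (d := fun _ => Fin q) s0 (flt s A' F' T N O)) ψ - ap X ψ‖ ≤
        2 * ((A ∪ F)ᶜ).card * ((w' + 1 : ℝ) ^ 2 * Real.exp (-w')) := by
      rw [norm_sub_rev, ← ap_sub]
      refine (norm_ap_le _ _).trans ?_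
      rw [h1, mul_one]
      refine hloc.trans (mul_le_mul_of_nonneg_right ?_ (by positivity))
      have : (V.card : ℝ) ≤ 2 * ((A ∪ F)ᶜ).card := by exact_mod_cast hV
      nlinarith [norm_nonneg O', Nat.cast_nonneg (α := ℝ) V.card]
    have b5 := hgf.trans (mul_le_mul_of_nonneg_left b1 (by positivity))
    have := norm_sub_le_norm_sub_add_norm_sub
      (ap (emb (d := fun _ => Fin q) s0 (flt s A' F' T N O)) ψ) (ap X ψ) (⟪ψ, ap O' ψ⟫_ℂ • ψ)
    linarith
  · rintro ⟨b, v⟩ ⟨b', v'⟩ hk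
    by_cases hb : b' = b
    · subst hb
      have : v' ∉ ball s v (2 * R) := by simpa using hk
      simp only [h, ← map_mul, hv_comm s this]
    · cases b <;> cases b'
      exacts [absurd rfl hb, (hcomm _ _).eq.symm, (hcomm _ _).eq, absurd rfl hb]
  · rintro ⟨b, v⟩ ⟨b', v'⟩ hk
    obtain ⟨hk', rfl⟩ : v' ∈ ball s v (2 * R) ∧ b = b' := by simpa using hk
    exact hop_lip s _ _ hk'
  · intro j hj
    refine ((hsp j).commute hsO ?_).eq
    rw [disjoint_left]
    intro p hp hp'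
    obtain ⟨hp, hb⟩ := (msp j p).1 hp
    obtain ⟨hp', hb'⟩ := (ms0 _ p).1 hp'
    exact disjoint_left.1 (hop_pos hj) hp (mem_filter.2 ⟨hp', (xor_false_imp (hb'.symm.trans hb)).symm⟩)
  · intro j hj hj'
    have hd : Disjoint (sp j) ((A' ∪ F').map s0) := by
      by_contra hd
      exact hj' (mem_filter.2 ⟨mem_univ _, hj, hd⟩)
    refine ⟨((hsp j).commute hsO (hd.mono_right (map_subset_map.2 hsub))).eq, fun k hk =>
      ((hsp j).commute (hsp k) (hd.mono_right fun p hp => ?_)).eq⟩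
    obtain ⟨hk, hb⟩ := (mem_filter.1 hk).2
    obtain ⟨hp, hb'⟩ := (msp k p).1 hp
    have := hgood _ hk _ hp
    refine (ms0 _ p).2 ⟨this.1, ?_⟩
    rw [hb', hb]
    simp [this.2]
  · intro j hj
    have hd : Disjoint (ball s j.2 (w - R)) (Zb j.1) := by
      rw [disjoint_left]
      intro x hx hx'
      obtain ⟨hx', hb⟩ := mem_filter.1 hx'
      have := hnear x hx' _ hx
      exact (mem_filter.1 hj).2.1 (mem_filter.2 ⟨mem_univ _, this.1, by rw [← hb]; simp [this.2]⟩)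
    have := le_hop hd le_rfl
    rw [Nat.sub_add_cancel hRw] at this
    exact hw.trans this

end Crest.Agent.N336.A.Amp
end

-- ▼ part N336/A/AmpC
section

/-!
# Row 336, amplification, part (C): the marginal on `A ∪ F` is close to the product
-/

set_option autoImplicit false
set_option linter.unusedSectionVars false

open Matrix Finset
open scoped ComplexOrder MatrixOrder Matrix.Norms.L2Operator InnerProductSpace

namespace Crest.Agent.N336.A.Amp

open Crest.Agent.N336.Q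

variable {q R : ℕ} {J Δ : ℝ} {Λ : Type} [Fintype Λ] [DecidableEq Λ] [Nonempty (Fin q)]

lemma inner_swp (Z : Finset Λ) (Ω : N336.Vec Λ q) (M : Q.Op fun _ : Λ => Fin q) :
    ⟪swp Z Ω, ap (emb (d := fun _ => Fin q) (sh false) M) (swp Z Ω)⟫_ℂ =
      trace (M * piZ (d := fun _ => Fin q) Z (pj Ω)) := by
  rw [← trace_mul_kb, trace_emb_mul, red_swp]

lemma sq_bound {Z : Finset Λ} {Ω : N336.Vec Λ q} {O Y : Q.Op fun _ : Λ => Fin q} {ε c : ℝ}
    (hO : O.IsHermitian) (hY : Y.IsHermitian)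
    (hc : c = (trace (O * piZ (d := fun _ => Fin q) Z (pj Ω))).re)
    (h : ‖ap (emb (d := fun _ => Fin q) (sh false) Y) (swp Z Ω) -
      ⟪swp Z Ω, ap (emb (d := fun _ => Fin q) (sh false) O) (swp Z Ω)⟫_ℂ • swp Z Ω‖ ≤ ε) :
    (trace ((Y - (c : ℂ) • 1) * (Y - (c : ℂ) • 1) * piZ (d := fun _ => Fin q) Z (pj Ω))).re ≤
      ε ^ 2 := by
  have h1 : ⟪swp Z Ω, ap (emb (d := fun _ => Fin q) (sh false) O) (swp Z Ω)⟫_ℂ = (c : ℂ) := by
    refine Complex.ext ?_ ?_
    · rw [inner_swp, hc, Complex.ofReal_re]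
    · rw [im_inner_ap (emb_isHermitian _ hO), Complex.ofReal_im]
  have hh : (Y - (c : ℂ) • 1)ᴴ = Y - (c : ℂ) • 1 := by
    rw [conjTranspose_sub, hY.eq, conjTranspose_smul, conjTranspose_one]; simp
  have h2 : ap (emb (d := fun _ => Fin q) (sh false) (Y - (c : ℂ) • 1)) (swp Z Ω) =
      ap (emb (d := fun _ => Fin q) (sh false) Y) (swp Z Ω) - (c : ℂ) • swp Z Ω := by
    rw [map_sub, map_smul, map_one, ap_sub, ap_smul, ap_one]
  rw [h1, ← h2] at h
  have h3 := norm_ap_sq (emb (d := fun _ => Fin q) (sh false) (Y - (c : ℂ) • 1)) (swp Z Ω)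
  rw [← emb_conjTranspose, hh, ← map_mul, inner_swp] at h3
  rw [← h3]
  exact pow_le_pow_left₀ (norm_nonneg _) h 2

/-- trace distance of the marginal and the product of the marginals -/
theorem td (s : Sys q R J Δ Λ) (hJ : 0 < J) (hΔ : 0 < Δ)
    {A F A' F' : Finset Λ} {w : ℕ} (hd : Disjoint A' F') (hA : ∀ x ∈ A, ball s x w ⊆ A')
    (hF : ∀ x ∈ F, ball s x w ⊆ F') {t : ℝ} (ht : MI s.Ω A' F' ≤ t) {w' N : ℕ} {T ε : ℝ}
    (hT : 0 < T) (hw : w' + 1 ≤ w / (2 * R + 1))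
    (hN : Real.exp 2 * (2 * ((4 * R + 1) ^ 2 : ℕ) * gJ R J * (N * T)) ≤ w')
    (hε : 2 * (2 / (T * Δ)) ^ N + 2 * ((A ∪ F)ᶜ).card * ((w' + 1 : ℝ) ^ 2 * Real.exp (-w')) ≤ ε)
    (O : Q.Op fun _ : Λ => Fin q) (hO : Supp (A ∪ F) O) (hH : O.IsHermitian) (hn : ‖O‖ ≤ 1) :
    |(trace (O * pj s.Ω)).re - (trace (O * piZ (d := fun _ => Fin q) A (pj s.Ω))).re| ≤
      2 * ε * Real.exp (t / 2) := by
  have hΩ : ‖s.Ω‖ = 1 := s.gap.1
  have hw0 : Dens (pj s.Ω) := dens_pj hΩ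
  have hε0 : 0 ≤ ε := le_trans (by positivity) hε
  have hAA : A ⊆ A' := fun x hx => hA x hx (mem_ball_self _ _ _)
  have hFF : F ⊆ F' := fun x hx => hF x hx (mem_ball_self _ _ _)
  have hF' : F' ⊆ A'ᶜ := le_compl_iff_disjoint_left.2 hd
  set Y := flt s A' F' T N O
  have hY : Y.IsHermitian := flt_herm s _ _ _ _ hH
  have hYs : Supp (A' ∪ F') Y := flt_supp s _ _ _ _ (hO.mono (union_subset_union hAA hFF))
  set D : ℝ := ((dim (fun _ : Λ => Fin q) (A' ∪ F')ᶜ : ℕ) : ℝ) with hD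
  have hD0 : 0 < D := dim_pos_real _
  have key : ∀ Z : Finset Λ, (∀ x ∈ A', ∀ y ∈ A', x ∈ Z ↔ y ∈ Z) →
      (∀ x ∈ F', ∀ y ∈ F', x ∈ Z ↔ y ∈ Z) → ∀ c : ℝ,
      c = (trace (O * piZ (d := fun _ => Fin q) Z (pj s.Ω))).re →
      (trace ((Y - (c : ℂ) • 1) * (Y - (c : ℂ) • 1) *
        mg (A' ∪ F') (piZ (d := fun _ => Fin q) Z (pj s.Ω)))).re ≤ D * ε ^ 2 := by
    intro Z h1 h2 c hc
    have hs : Supp (A' ∪ F') (Y - (c : ℂ) • 1) := hYs.sub ((Supp.one _).smul _)
    rw [(hs.mul hs).trace_mul_mg, ← Complex.ofReal_natCast, Complex.re_ofReal_mul]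
    refine mul_le_mul_of_nonneg_left (sq_bound hH hY hc (le_trans ?_ hε)) hD0.le
    exact doubled s hJ hΔ hA hF h1 h2 (fun b => if b then e2 Z else e1 Z)
      (fun b x => by cases b <;> simp) (sh false) (fun _ => rfl) (norm_swp Z hΩ) (pj_swp Z s.Ω)
      hO hn hT hw hN
  have k1 := key ∅ (by simp) (by simp) _ rfl
  have k2 := key A' (fun x hx y hy => by simp [hx, hy])
    (fun x hx y hy => by simp [mem_compl.1 (hF' hx), mem_compl.1 (hF' hy)]) _ rfl
  rw [piZ_empty hw0] at k1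
  have hσ := mg_posSemidef (A' ∪ F') (hw0.piZ (d := fun _ => Fin q) A').psd
  have hW : (fr Real.sqrt (mg (A' ∪ F') (piZ (d := fun _ => Fin q) A' (pj s.Ω))))ᴴ = _ :=
    fr_isHermitian _ _
  have hov := overlap (d := fun _ => Fin q) hd hw0
  rw [← fr_sqrt_mg_mul hd hw0.psd hw0.psd, ← mg_piZ Subset.rfl hF', ← hW] at hov
  have htr : ∀ ω : Q.Op fun _ : Λ => Fin q, Dens ω → (trace (mg (A' ∪ F') ω)).re ≤ D :=
    fun ω hω => by rw [trace_mg, hω.tr, mul_one, Complex.natCast_re]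
  have k3 := cmp (mg_posSemidef (A' ∪ F') hw0.psd) hY hD0.le hε0 (htr _ hw0)
    (by rw [hW, fr_sqrt_mul_self hσ]; exact htr _ (hw0.piZ _)) k1
    (by rw [hW, fr_sqrt_mul_self hσ]; exact k2) hov
  have e : trace (O * piZ (d := fun _ => Fin q) A' (pj s.Ω)) =
      trace (O * piZ (d := fun _ => Fin q) A (pj s.Ω)) := by
    refine mul_left_cancel₀ (dim_ne_zero (d := fun _ : Λ => Fin q) (A ∪ F)ᶜ) ?_
    rw [← hO.trace_mul_mg, ← hO.trace_mul_mg, mg_piZ hAA (hFF.trans hF'), mg_piZ Subset.rfl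
      (hFF.trans (hF'.trans (compl_subset_compl.2 hAA)))]
  rw [e, ← hD] at k3
  simp only [MI, S_eq] at ht
  set x := |(trace (O * pj s.Ω)).re - (trace (O * piZ (d := fun _ => Fin q) A (pj s.Ω))).re|
  have hx : 0 ≤ x := abs_nonneg _
  have h5 : Real.exp (-t / 2) * x ≤ 2 * ε := by
    have h6 : Real.exp (-t / 2) ≤ Real.exp (-(SX A' (pj s.Ω) + SX F' (pj s.Ω) -
        SX (d := fun _ => Fin q) (A' ∪ F') (pj s.Ω)) / 2) := Real.exp_le_exp.2 (by linarith)
    refine le_of_mul_le_mul_left ?_ hD0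
    nlinarith [mul_le_mul_of_nonneg_left h6 (mul_nonneg hx hD0.le)]
  have h7 : Real.exp (t / 2) * Real.exp (-t / 2) = 1 := by rw [← Real.exp_add]; simp [neg_div]
  nlinarith [mul_le_mul_of_nonneg_left h5 (Real.exp_pos (t / 2)).le]

end Crest.Agent.N336.A.Amp
end

-- ▼ part N336/A/AmpD
section

/-!
# Row 336, amplification, part (D): from the trace distance to the exchange unitary
-/

set_option autoImplicit false
set_option linter.unusedSectionVars false

open Matrix Finset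
open scoped ComplexOrder MatrixOrder Matrix.Norms.L2Operator InnerProductSpace

namespace Crest.Agent.N336.A.Amp

open Crest.Agent.N336.Q Crest.MathPhysics.LatticeSpin

lemma norm_le_of_re_inner {n : Type} [Fintype n] [DecidableEq n] {M : Matrix n n ℂ}
    (hM : M.IsHermitian) (h : ∀ v : Q.Vec n, ‖v‖ = 1 → |(⟪v, ap M v⟫_ℂ).re| ≤ 1) : ‖M‖ ≤ 1 := by
  rw [← fc_id hM]
  refine norm_fc_le zero_le_one fun i => ?_
  rw [Complex.norm_real, Real.norm_eq_abs, ev_eq_re_inner hM]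
  exact h _ (norm_evec _ _)

lemma abs_re_trace_le {n : Type} [Fintype n] [DecidableEq n] {O ρ : Matrix n n ℂ}
    (hn : ‖O‖ ≤ 1) (hρ : Dens ρ) : |(trace (O * ρ)).re| ≤ 1 := by
  rw [← fr_id hρ.herm, trace_mul_fc]
  refine (Complex.abs_re_le_norm _).trans ((norm_sum_le _ _).trans ?_)
  rw [← hρ.sum_ev]
  refine Finset.sum_le_sum fun i _ => ?_
  have h1 := norm_inner_ap_le O (evec ρ i) (evec ρ i)
  rw [norm_evec, mul_one, mul_one] at h1
  rw [norm_mul, Complex.norm_real, Real.norm_eq_abs, abs_of_nonneg (ev_nonneg hρ.psd i)]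
  exact mul_le_of_le_one_right (ev_nonneg hρ.psd i) (h1.trans hn)

variable {q : ℕ} {Λ : Type} [Fintype Λ] [DecidableEq Λ] [Nonempty (Fin q)]

/-- contraction of an operator on the doubled system with a state on one of the copies -/
lemma contract {e e' : Λ ↪ Bool × Λ} (hr : rg e' = (rg e)ᶜ) (he : ∀ x, (e x).2 = x)
    {Y : Finset Λ} {O : Q.Op fun _ : Bool × Λ => Fin q}
    (hO : Supp (univ.filter fun p : Bool × Λ => p.2 ∈ Y) O) (hH : O.IsHermitian) (hn : ‖O‖ ≤ 1)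
    {ρ : Q.Op fun _ : Λ => Fin q} (hρ : Dens ρ) :
    ∃ O₁ : Q.Op fun _ : Λ => Fin q, Supp Y O₁ ∧ O₁.IsHermitian ∧ ‖O₁‖ ≤ 1 ∧ ∀ m, trace (O₁ * m) =
      trace (O * (emb (d := fun _ => Fin q) e m * emb (d := fun _ => Fin q) e' ρ)) := by
  have hd : Disjoint (rg e) (rg e') := hr ▸ disjoint_compl_right
  have hs : Supp (rg e)ᶜ (emb (d := fun _ => Fin q) e' ρ) := hr ▸ supp_emb _ _
  have hc : ∀ a b, Commute (emb (d := fun _ => Fin q) e a) (emb (d := fun _ => Fin q) e' b) :=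
    fun a b => (supp_emb _ a).commute (supp_emb _ b) hd
  have htr : ∀ m, trace (red (d := fun _ => Fin q) e (emb (d := fun _ => Fin q) e' ρ * O) * m) =
      trace (O * (emb (d := fun _ => Fin q) e m * emb (d := fun _ => Fin q) e' ρ)) := fun m => by
    rw [← trace_mul_emb, mul_assoc, trace_mul_comm, mul_assoc]
  have hh : (red (d := fun _ => Fin q) e (emb (d := fun _ => Fin q) e' ρ * O)).IsHermitian := by
    change _ᴴ = _
    rw [← red_conjTranspose, conjTranspose_mul, hH.eq, (emb_isHermitian _ hρ.herm).eq,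
      red_mul_comm hs]
  refine ⟨_, supp_of_commute fun B hB => ?_, hh, norm_le_of_re_inner hh fun v hv => ?_, htr⟩
  · have h1 : Commute O (emb (d := fun _ => Fin q) e B) := hO.commute (hB.emb e) (by
      rw [disjoint_left]
      intro p hp hp'
      obtain ⟨x, hx, rfl⟩ := mem_map.1 hp'
      rw [mem_filter, he] at hp
      exact mem_compl.1 hx hp.2)
    refine (red_mul_emb (d := fun _ => Fin q) e B _).symm.trans
      (Eq.trans ?_ (red_emb_mul (d := fun _ => Fin q) e B _))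
    rw [mul_assoc, h1.eq, ← mul_assoc, ← (hc _ _).eq, mul_assoc]
  · rw [← trace_mul_kb, htr]
    refine abs_re_trace_le hn ⟨posSemidef_mul_of_commute (emb_posSemidef _ (pj_posSemidef v))
      (emb_posSemidef _ hρ.psd) (hc _ _), ?_⟩
    rw [trace_emb_mul_emb hd, hr, union_compl, compl_univ, dim_empty, hρ.tr, (dens_pj hv).tr]
    simp

theorem exch_of_td (Ω : N336.Vec Λ q) (hΩ : ‖Ω‖ = 1) {A F : Finset Λ} {δ : ℝ}
    (h : ∀ O : Q.Op fun _ : Λ => Fin q, Supp (A ∪ F) O → O.IsHermitian → ‖O‖ ≤ 1 →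
      |(trace (O * pj Ω)).re - (trace (O * piZ (d := fun _ => Fin q) A (pj Ω))).re| ≤ δ) :
    Exch Ω A F (2 * Real.sqrt δ) := by
  have hw : Dens (pj Ω) := dens_pj hΩ
  have hπ := hw.piZ (d := fun _ => Fin q) A
  set π := piZ (d := fun _ => Fin q) A (pj Ω) with hπd
  obtain ⟨U, hU, h1, h2, h3⟩ := uhl (Bool × Λ) (fun _ => Fin q)
    (univ.filter fun p : Bool × Λ => p.2 ∈ A ∪ F) (swp ∅ Ω) (swp A Ω) (4 * δ) fun O hO hH hn => by
    have key : ∀ Z : Finset Λ, |(⟪swp Z Ω, ap O (swp Z Ω)⟫_ℂ).re - (trace (O *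
        (emb (d := fun _ => Fin q) (e1 Z) π * emb (d := fun _ => Fin q) (e2 Z) π))).re| ≤ 2 * δ := by
      intro Z
      obtain ⟨O₁, a1, a2, a3, a4⟩ := contract (rg_e2 Z) (fun _ => rfl) hO hH hn hw
      obtain ⟨O₂, b1, b2, b3, b4⟩ := contract (e := e2 Z) (e' := e1 Z)
        (by rw [rg_e2, compl_compl]) (fun _ => rfl) hO hH hn hπ
      have c1 := h O₁ a1 a2 a3
      have c2 := h O₂ b1 b2 b3
      rw [a4, a4] at c1
      rw [b4, b4, ← (commute_e1_e2 Z _ _).eq, ← (commute_e1_e2 Z _ _).eq] at c2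
      rw [← trace_mul_kb, show kb (swp Z Ω) (swp Z Ω) = _ from pj_swp Z Ω]
      exact (abs_sub_le _ _ _).trans (by linarith)
    have e : emb (d := fun _ => Fin q) (e1 ∅) π * emb (d := fun _ => Fin q) (e2 ∅) π =
        emb (d := fun _ => Fin q) (e1 A) π * emb (d := fun _ => Fin q) (e2 A) π := by
      have sa := supp_mg (d := fun _ => Fin q) A (pj Ω)
      have sb := supp_mg (d := fun _ => Fin q) Aᶜ (pj Ω)
      rw [hπd, piZ]
      simp only [map_mul]
      rw [emb_congr (e := e1 ∅) (e' := e2 A) (fun x hx => by simp [hx]) sa,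
        emb_congr (e := e1 ∅) (e' := e1 A) (fun x hx => by simp [mem_compl.1 hx]) sb,
        emb_congr (e := e2 ∅) (e' := e1 A) (fun x hx => by simp [hx]) sa,
        emb_congr (e := e2 ∅) (e' := e2 A) (fun x hx => by simp [mem_compl.1 hx]) sb,
        ← (commute_e1_e2 A _ _).eq, ← mul_assoc, ← mul_assoc, mul_assoc _ (emb (e2 A) _),
        ← (commute_e1_e2 A _ _).eq, ← mul_assoc, ← map_mul,
        ← (sa.commute sb disjoint_compl_right).eq, map_mul]
    have k1 := abs_le.1 (key ∅)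
    have k2 := abs_le.1 (key A)
    rw [e] at k1
    linarith [k1.2, k2.1]
  refine ⟨U, Matrix.mem_unitaryGroup_iff.2 h2, isSupportedOn_iff.2 (hU.mono fun p hp => ?_), ?_⟩
  · simpa using hp
  · have : ‖ap U (swp ∅ Ω) - swp A Ω‖ ≤ Real.sqrt (4 * δ) := Real.le_sqrt_of_sq_le h3
    rw [Real.sqrt_mul (by norm_num), show Real.sqrt 4 = 2 by
      rw [show (4 : ℝ) = 2 ^ 2 by norm_num, Real.sqrt_sq zero_le_two]] at this
    exact this

end Crest.Agent.N336.A.Amp
end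

-- ▼ part N336/A/Amp
section

/-!
# Row 336: the amplification lemma `AmpStmt` (helper33)
-/

set_option autoImplicit false

open Matrix Finset
open scoped ComplexOrder MatrixOrder Matrix.Norms.L2Operator InnerProductSpace

namespace Crest.Agent.N336

open Q A A.Amp Crest.MathPhysics.LatticeSpin

section
variable {q : ℕ} {Λ : Type} [Fintype Λ] [DecidableEq Λ]

lemma Exch.mono {Ω : Vec Λ q} {A F : Finset Λ} {a b : ℝ} (h : Exch Ω A F a) (hab : a ≤ b) :
    Exch Ω A F b := by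
  obtain ⟨U, h1, h2, h3⟩ := h
  exact ⟨U, h1, h2, h3.trans hab⟩

lemma exch_two [Nonempty (Fin q)] {Ω : Vec Λ q} (h : ‖Ω‖ = 1) (A F : Finset Λ) : Exch Ω A F 2 := by
  refine ⟨1, one_mem _, isSupportedOn_iff.2 (Supp.one _), ?_⟩
  change ‖ap 1 (swp ∅ Ω) - swp A Ω‖ ≤ 2
  rw [ap_one]
  refine (norm_sub_le _ _).trans ?_
  rw [norm_swp _ h, norm_swp _ h]; norm_num
end

lemma amp_eps {κ x B : ℝ} {N : ℕ} (hκ : κ ≤ 1 / 2) (hx : 0 ≤ x) (hB : 0 ≤ B)
    (hN : κ * x ≤ N + 1) : 2 * (Real.exp 1)⁻¹ ^ N + 2 * B * ((x + 1) ^ 2 * Real.exp (-x)) ≤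
      32 * (B + 1) * Real.exp (-(κ * x)) := by
  have h1 : (Real.exp 1)⁻¹ ^ N ≤ 3 * Real.exp (-(κ * x)) := by
    rw [← Real.exp_neg, ← Real.exp_nat_mul]
    calc Real.exp (N * -1) ≤ Real.exp (1 + -(κ * x)) := Real.exp_le_exp.2 (by linarith)
      _ ≤ _ := by
        rw [Real.exp_add]
        exact mul_le_mul_of_nonneg_right (Real.exp_one_lt_three.le) (Real.exp_pos _).le
  have h2 : (x + 1) ^ 2 * Real.exp (-x) ≤ 16 * Real.exp (-(κ * x)) := by
    have h3 : x + 1 ≤ 4 * Real.exp (x / 4) := by linarith [Real.add_one_le_exp (x / 4)]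
    calc (x + 1) ^ 2 * Real.exp (-x) ≤ (4 * Real.exp (x / 4)) ^ 2 * Real.exp (-x) := by gcongr
      _ = 16 * Real.exp (x / 4 + x / 4 + -x) := by rw [Real.exp_add, Real.exp_add]; ring
      _ ≤ _ := by gcongr; nlinarith
  nlinarith [Real.exp_pos (-(κ * x)), mul_le_mul_of_nonneg_left h2 hB]

theorem amp : AmpStmt := by
  intro q R J Δ hq hJ hΔ
  have : Nonempty (Fin q) := ⟨⟨0, hq⟩⟩
  set T : ℝ := 2 * Real.exp 1 / Δ with hT
  have hT0 : 0 < T := by positivity
  have hg := gJ_pos R hJ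
  set a : ℝ := Real.exp 2 * (2 * ((4 * R + 1) ^ 2 : ℕ) * gJ R J * T) with ha
  have ha0 : 0 < a := by positivity
  set κ : ℝ := min (1 / 2) a⁻¹ with hκ
  have hκ0 : 0 < κ := by positivity
  have hκ1 : κ ≤ 1 / 2 := min_le_left _ _
  have hκ2 : a * κ ≤ 1 := by
    rw [← mul_inv_cancel₀ ha0.ne']; exact mul_le_mul_of_nonneg_left (min_le_right _ _) ha0.le
  have hR : (0 : ℝ) < 2 * R + 1 := by positivity
  refine ⟨κ / (2 * (2 * R + 1)), 32, by positivity, by norm_num, ?_⟩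
  intro Λ _ _ s A F A' F' w t hd hA hF ht
  have hΩ : ‖s.Ω‖ = 1 := s.gap.1
  have ht0 : 0 ≤ t := by
    refine le_trans ?_ ht
    simp only [MI, S_eq]
    linarith [(dens_pj hΩ).SX_union_le (d := fun _ => Fin q) A' F']
  set B : ℝ := (((A ∪ F)ᶜ).card : ℝ) with hB
  have hB0 : 0 ≤ B := Nat.cast_nonneg _
  set y : ℝ := w / (2 * R + 1) with hy
  have hc : κ / (2 * (2 * R + 1)) * w = κ * y / 2 := by rw [hy]; field_simp
  rw [hc]
  have hlt : y < (w / (2 * R + 1) : ℕ) + 1 := by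
    rw [hy, div_lt_iff₀ hR]
    have := Nat.lt_mul_div_succ w (Nat.succ_pos (2 * R))
    rw [mul_comm] at this
    exact_mod_cast this
  rcases Nat.eq_zero_or_pos (w / (2 * R + 1)) with h0 | h0
  · refine (exch_two hΩ A F).mono ?_
    rw [h0] at hlt
    have := Real.add_one_le_exp (t - κ * y / 2)
    have hy1 : κ * y ≤ 1 / 2 := by
      have : (0 : ℝ) ≤ y := by positivity
      push_cast at hlt
      nlinarith
    nlinarith [Real.exp_pos (t - κ * y / 2)]
  obtain ⟨w', hw'⟩ : ∃ w', w / (2 * R + 1) = w' + 1 := ⟨_, (Nat.succ_pred_eq_of_pos h0).symm⟩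
  have hx : (0 : ℝ) ≤ w' := Nat.cast_nonneg _
  have hε := amp_eps hκ1 hx hB0 (Nat.lt_floor_add_one (κ * w')).le
  have hfl : (⌊κ * w'⌋₊ : ℝ) ≤ κ * w' := Nat.floor_le (by positivity)
  have hTΔ : 2 / (T * Δ) = (Real.exp 1)⁻¹ := by rw [hT]; field_simp
  have key := exch_of_td s.Ω hΩ (td s hJ hΔ hd (fun x hx y hy => hA x hx y (mem_ball.1 hy))
    (fun x hx y hy => hF x hx y (mem_ball.1 hy)) ht (w' := w') (N := ⌊κ * w'⌋₊)
    (ε := 32 * (B + 1) * Real.exp (-(κ * w'))) hT0 hw'.ge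
    (by nlinarith [mul_le_mul_of_nonneg_left hfl ha0.le, mul_le_mul_of_nonneg_right hκ2 hx])
    (by rw [hTΔ]; exact hε))
  refine key.mono ?_
  have h1 : Real.exp (-(κ * w')) * Real.exp (t / 2) ≤ 3 * Real.exp (t - κ * y / 2) ^ 2 := by
    rw [← Real.exp_add, sq, ← Real.exp_add]
    rw [hw'] at hlt
    push_cast at hlt
    calc _ ≤ Real.exp (1 + (t - κ * y / 2 + (t - κ * y / 2))) := Real.exp_le_exp.2 (by nlinarith)
      _ ≤ _ := by
        rw [Real.exp_add]
        exact mul_le_mul_of_nonneg_right (Real.exp_one_lt_three.le) (Real.exp_pos _).le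
  have h2 : Real.sqrt (2 * (32 * (B + 1) * Real.exp (-(κ * w'))) * Real.exp (t / 2)) ≤
      16 * (B + 1) * Real.exp (t - κ * y / 2) := by
    refine Real.sqrt_le_iff.2 ⟨by positivity, ?_⟩
    have h3 : 0 ≤ Real.exp (t - κ * y / 2) ^ 2 := sq_nonneg _
    nlinarith [mul_le_mul_of_nonneg_left h1 (by positivity : (0 : ℝ) ≤ B + 1),
      mul_nonneg (mul_nonneg hB0 hB0) h3, mul_nonneg hB0 h3]
  linarith

end Crest.Agent.N336
end

-- ▼ part N336/Area/Sep
section

/-!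
# Row 336, area law geometry: separation of equal-colour cells away from vertices (helper51)
-/

set_option autoImplicit false

namespace Crest.Agent.N336.Area

variable {Γ : Finset (ℤ × ℤ)} {p : ℕ} {s₁ s₂ : ℕ → ℕ}

theorem ht_near (hΓ : Γ.Nonempty) {i : ℕ} (hi : 1 ≤ i) {z y : ℤ × ℤ} (hz : i ≤ lay Γ z)
    (hn : Near (2 ^ i) y z) : 2 * i ≤ ht Γ y := by
  by_contra hcon
  have := ht_lip hΓ (n := 2 * i - 1) (z := y) (z' := z) (by omega)
    (by rwa [show (2 * i - 1) / 2 + 1 = i by omega])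
  unfold lay at hz; omega

theorem far_gam (hΓ : Γ.Nonempty) {i : ℕ} (hi : 1 ≤ i) {z : ℤ × ℤ} (hz : i ≤ lay Γ z) :
    ¬ Wd Γ (4 * 2 ^ (i + 1)) z := fun h => by
  have : Zl Γ (2 * i) z := Zl_of_Wd (by
    rw [show 2 * i % 2 = 0 by omega, show 2 * i / 2 = i by omega]; simpa using h)
  rw [← ht_le_iff hΓ] at this
  unfold lay at hz; omega

theorem wd_of_ht (hΓ : Γ.Nonempty) {i : ℕ} {z : ℤ × ℤ} (hz : ht Γ z ≤ 2 * i) :
    Wd Γ (5 * 2 ^ (i + 1)) z := by
  have := Wd_of_Zl ((ht_le_iff hΓ).1 hz)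
  rw [show 2 * i % 2 = 0 by omega, show 2 * i / 2 = i by omega] at this
  simpa using this

theorem hor (hΓ : Γ.Nonempty) {t : ℕ} {x x' b : ℤ} (h1 : x - x' ≤ 2 ^ t) (h2 : x' - x ≤ 2 ^ t)
    (hh : ∀ y, y - x ≤ 2 ^ t → x - y ≤ 2 ^ t → 2 * t + 2 ≤ ht Γ (y, b))
    (hc : col Γ p s₁ s₂ (x, b) = col Γ p s₁ s₂ (x', b)) :
    lab Γ p s₁ s₂ (x, b) = lab Γ p s₁ s₂ (x', b) := by
  have hT : (0 : ℤ) < 2 ^ t := by positivity
  have ct : ∀ y y', y - x ≤ 2 ^ t → x - y ≤ 2 ^ t → y / 2 ^ t = y' / 2 ^ t →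
      col Γ p s₁ s₂ (y, b) = col Γ p s₁ s₂ (y', b) ∧
        lab Γ p s₁ s₂ (y, b) = lab Γ p s₁ s₂ (y', b) := fun y y' a1 a2 e =>
    const_tile hΓ (hh y a1 a2) (by simp only [tile, e])
  by_cases e : x / 2 ^ t = x' / 2 ^ t
  · exact (ct x x' (by omega) (by omega) e).2
  obtain ⟨a, ha, h⟩ := exists_cut hT e
  have e1 := ediv_side (x := x) hT ha (by omega) (by omega)
  have e2 := ediv_side (x := x') hT ha (by omega) (by omega)
  have c1 := ct x _ (by omega) (by omega) e1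
  have c2 := ct x' _ (by omega) (by omega) e2
  have k1 := hh a (by omega) (by omega)
  rcases h with h | h
  · rw [if_neg (by omega)] at c1
    rw [if_pos (by omega)] at c2
    have k2 := hh (a - 1) (by omega) (by omega)
    rw [c1.2, c2.2]
    exact (pix_h hΓ (by omega) (by omega) (by rw [← c1.1, ← c2.1, hc])).symm
  · rw [if_pos (by omega)] at c1
    rw [if_neg (by omega)] at c2
    have k2 := hh (a - 1) (by omega) (by omega)
    rw [c1.2, c2.2]
    exact pix_h hΓ (by omega) (by omega) (by rw [← c1.1, ← c2.1, hc])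

theorem ver (hΓ : Γ.Nonempty) {t : ℕ} {x x' b : ℤ} (h1 : x - x' ≤ 2 ^ t) (h2 : x' - x ≤ 2 ^ t)
    (hh : ∀ y, y - x ≤ 2 ^ t → x - y ≤ 2 ^ t → 2 * t + 2 ≤ ht Γ (b, y))
    (hc : col Γ p s₁ s₂ (b, x) = col Γ p s₁ s₂ (b, x')) :
    lab Γ p s₁ s₂ (b, x) = lab Γ p s₁ s₂ (b, x') := by
  have hT : (0 : ℤ) < 2 ^ t := by positivity
  have ct : ∀ y y', y - x ≤ 2 ^ t → x - y ≤ 2 ^ t → y / 2 ^ t = y' / 2 ^ t →
      col Γ p s₁ s₂ (b, y) = col Γ p s₁ s₂ (b, y') ∧
        lab Γ p s₁ s₂ (b, y) = lab Γ p s₁ s₂ (b, y') := fun y y' a1 a2 e =>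
    const_tile hΓ (hh y a1 a2) (by simp only [tile, e])
  by_cases e : x / 2 ^ t = x' / 2 ^ t
  · exact (ct x x' (by omega) (by omega) e).2
  obtain ⟨a, ha, h⟩ := exists_cut hT e
  have e1 := ediv_side (x := x) hT ha (by omega) (by omega)
  have e2 := ediv_side (x := x') hT ha (by omega) (by omega)
  have c1 := ct x _ (by omega) (by omega) e1
  have c2 := ct x' _ (by omega) (by omega) e2
  have k1 := hh a (by omega) (by omega)
  rcases h with h | h
  · rw [if_neg (by omega)] at c1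
    rw [if_pos (by omega)] at c2
    have k2 := hh (a - 1) (by omega) (by omega)
    rw [c1.2, c2.2]
    exact (pix_v hΓ (by omega) (by omega) (by rw [← c1.1, ← c2.1, hc])).symm
  · rw [if_pos (by omega)] at c1
    rw [if_neg (by omega)] at c2
    have k2 := hh (a - 1) (by omega) (by omega)
    rw [c1.2, c2.2]
    exact pix_v hΓ (by omega) (by omega) (by rw [← c1.1, ← c2.1, hc])

/-- Separation: two close points of the same colour and different labels are close to a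
four-valent vertex on a grid line. -/
theorem sep (hΓ : Γ.Nonempty) {t : ℕ} {z z' : ℤ × ℤ} (hz : lay Γ z = t + 1)
    (hz' : t + 1 ≤ lay Γ z') {r : ℤ} (hr : r ≤ 2 ^ t) (hn : Near r z z')
    (hc : col Γ p s₁ s₂ z = col Γ p s₁ s₂ z') (hl : lab Γ p s₁ s₂ z ≠ lab Γ p s₁ s₂ z') :
    ∃ v : ℤ × ℤ, Box v r z ∧ 2 ^ t ∣ v.1 ∧ 2 ^ t ∣ v.2 ∧
      (∀ y, Box v (2 ^ t) y → chk (col Γ p s₁ s₂ v) v y = col Γ p s₁ s₂ y) ∧
      ∃ k, t + 1 ≤ k ∧ k ≤ t + 2 ∧ (Line p s₁ k v.1 ∨ Line p s₂ k v.2) := by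
  obtain ⟨x, y⟩ := z
  obtain ⟨x', y'⟩ := z'
  have hT : (0 : ℤ) < 2 ^ t := by positivity
  have hh : ∀ a b, a - x ≤ 2 * 2 ^ t → x - a ≤ 2 * 2 ^ t → b - y ≤ 2 * 2 ^ t → y - b ≤ 2 * 2 ^ t →
      2 * t + 2 ≤ ht Γ (a, b) := fun a b a1 a2 a3 a4 =>
    ht_near hΓ (i := t + 1) (by omega) hz.ge (by rw [pow_succ]; unfold Near; simp only; omega)
  simp only [Near] at hn
  obtain ⟨n1, n2, n3, n4⟩ := hn
  have w1 : col Γ p s₁ s₂ (x, y) ≠ col Γ p s₁ s₂ (x', y) := fun h => hl <| by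
    rw [hor hΓ (t := t) (by omega) (by omega)
      (fun a a1 a2 => hh a y (by omega) (by omega) (by omega) (by omega)) h]
    exact ver hΓ (t := t) (by omega) (by omega)
      (fun a a1 a2 => hh x' a (by omega) (by omega) (by omega) (by omega)) (by rw [← h, hc])
  have w2 : col Γ p s₁ s₂ (x, y) ≠ col Γ p s₁ s₂ (x, y') := fun h => hl <| by
    rw [ver hΓ (t := t) (by omega) (by omega)
      (fun a a1 a2 => hh x a (by omega) (by omega) (by omega) (by omega)) h]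
    exact hor hΓ (t := t) (by omega) (by omega)
      (fun a a1 a2 => hh a y' (by omega) (by omega) (by omega) (by omega)) (by rw [← h, hc])
  have ct : ∀ a b a' b', a - x ≤ 2 * 2 ^ t → x - a ≤ 2 * 2 ^ t → b - y ≤ 2 * 2 ^ t →
      y - b ≤ 2 * 2 ^ t → a / 2 ^ t = a' / 2 ^ t → b / 2 ^ t = b' / 2 ^ t →
      col Γ p s₁ s₂ (a, b) = col Γ p s₁ s₂ (a', b') := fun a b a' b' a1 a2 a3 a4 e1 e2 =>
    (const_tile hΓ (hh a b a1 a2 a3 a4) (by simp only [tile, e1, e2])).1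
  obtain ⟨a, ha, ca⟩ := exists_cut hT (x := x) (x' := x') fun e =>
    w1 (ct _ _ _ _ (by omega) (by omega) (by omega) (by omega) e rfl)
  obtain ⟨b, hb, cb⟩ := exists_cut hT (x := y) (x' := y') fun e =>
    w2 (ct _ _ _ _ (by omega) (by omega) (by omega) (by omega) rfl e)
  have cq : ∀ u w, a - 2 ^ t ≤ u → u < a + 2 ^ t → b - 2 ^ t ≤ w → w < b + 2 ^ t →
      col Γ p s₁ s₂ (u, w) =
        col Γ p s₁ s₂ (if a ≤ u then a else a - 1, if b ≤ w then b else b - 1) :=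
    fun u w a1 a2 a3 a4 => ct _ _ _ _ (by omega) (by omega) (by omega) (by omega)
      (ediv_side hT ha a1 a2) (ediv_side hT hb a3 a4)
  have q1 := cq x y (by omega) (by omega) (by omega) (by omega)
  have q2 := cq x' y (by omega) (by omega) (by omega) (by omega)
  have q3 := cq x y' (by omega) (by omega) (by omega) (by omega)
  have q4 := cq x' y' (by omega) (by omega) (by omega) (by omega)
  refine ⟨(a, b), by unfold Box; simp only; omega, ha, hb, fun u hu => ?_, ?_⟩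
  · obtain ⟨u, w⟩ := u
    simp only [Box] at hu
    rw [cq u w (by omega) (by omega) (by omega) (by omega)]
    rw [q1, q2] at w1
    rw [q1, q3] at w2
    rw [q1, q4] at hc
    have key : col Γ p s₁ s₂ (a - 1, b) = !col Γ p s₁ s₂ (a, b) ∧
        col Γ p s₁ s₂ (a, b - 1) = !col Γ p s₁ s₂ (a, b) ∧
        col Γ p s₁ s₂ (a - 1, b - 1) = col Γ p s₁ s₂ (a, b) := by
      rcases ca with ca | ca <;> rcases cb with cb | cb <;>
        simp only [ca.2, cb.2, not_le.2 ca.1, not_le.2 cb.1, if_true, if_false] at w1 w2 hc <;>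
        revert w1 w2 hc <;> cases col Γ p s₁ s₂ (a - 1, b) <;> cases col Γ p s₁ s₂ (a, b) <;>
        cases col Γ p s₁ s₂ (a, b - 1) <;> cases col Γ p s₁ s₂ (a - 1, b - 1) <;> simp
    unfold chk
    by_cases a1 : a ≤ u <;> by_cases a2 : b ≤ w <;> simp [a1, a2, key]
  · by_contra hcon
    have nl : ∀ k, t + 1 ≤ k → k ≤ t + 2 → gr p s₁ k x = gr p s₁ k x' ∧ gr p s₂ k y = gr p s₂ k y' := by
      intro k k1 k2
      have l1 : ¬ Line p s₁ k a := fun h => hcon ⟨k, k1, k2, Or.inl h⟩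
      have l2 : ¬ Line p s₂ k b := fun h => hcon ⟨k, k1, k2, Or.inr h⟩
      have g1 : ∀ u, a - 2 ^ t ≤ u → u < a + 2 ^ t → gr p s₁ k u = gr p s₁ k a := fun u a1 a2 => by
        rw [gr_tile (by omega : t ≤ k) (ediv_side hT ha a1 a2)]
        split_ifs
        · rfl
        · exact gr_noline l1
      have g2 : ∀ u, b - 2 ^ t ≤ u → u < b + 2 ^ t → gr p s₂ k u = gr p s₂ k b := fun u a1 a2 => by
        rw [gr_tile (by omega : t ≤ k) (ediv_side hT hb a1 a2)]
        split_ifs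
        · rfl
        · exact gr_noline l2
      rw [g1 x (by omega) (by omega), g1 x' (by omega) (by omega), g2 y (by omega) (by omega),
        g2 y' (by omega) (by omega)]
      exact ⟨rfl, rfl⟩
    have m1 := nl (t + 1) le_rfl (by omega)
    have m2 := nl (t + 2) (by omega) le_rfl
    have hne : lay Γ (x', y') ≠ t + 1 := fun e => hl (by unfold lab; rw [e, hz, m1.1, m1.2])
    have lip : ht Γ (x', y') ≤ ht Γ (x, y) + 1 := ht_lip hΓ le_rfl (by
      have : (2 : ℤ) ^ t ≤ 2 ^ (ht Γ (x, y) / 2 + 1) :=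
        pow_le_pow_right₀ (by norm_num) (by unfold lay at hz; omega)
      unfold Near; simp only; omega)
    have e1 : ht Γ (x, y) / 2 = t + 2 := by unfold lay at *; omega
    have e2 : ht Γ (x', y') / 2 = t + 2 := by unfold lay at *; omega
    have e3 : lay Γ (x', y') = t + 2 := by unfold lay at *; omega
    unfold col gs at hc
    rw [decide_eq_decide, e1, e2, e3, hz, show t + 2 - 1 = t + 1 by omega] at hc
    simp only [m1.1, m1.2, m2.1, m2.2] at hc
    omega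

end Crest.Agent.N336.Area
end

-- ▼ part N336/Area/Count
section

/-!
# Row 336, area law geometry: counting vertices and labels (helper51)
-/

set_option autoImplicit false

namespace Crest.Agent.N336.Area

theorem sum_biUnion_le {ι α : Type} [DecidableEq ι] [DecidableEq α] (I : Finset ι)
    (V : ι → Finset α) (f : α → ℝ) (hf : ∀ a, 0 ≤ f a) :
    ∑ a ∈ I.biUnion V, f a ≤ ∑ i ∈ I, ∑ a ∈ V i, f a := by
  induction I using Finset.induction_on with
  | empty => simp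
  | insert i I hi ih =>
    rw [Finset.biUnion_insert, Finset.sum_insert hi]
    have := Finset.sum_union_inter (s₁ := V i) (s₂ := I.biUnion V) (f := f)
    have h2 : 0 ≤ ∑ a ∈ V i ∩ I.biUnion V, f a := Finset.sum_nonneg fun a _ => hf a
    linarith

theorem sum_half_div {h : ℕ} (hh : 1 ≤ h) (N : ℕ) :
    ∑ k ∈ Finset.range N, (1 / 2 : ℝ) ^ (k / h) ≤ 2 * h := by
  have key : ∀ n, ∑ k ∈ Finset.range (h * n), (1 / 2 : ℝ) ^ (k / h) =
      2 * h - 2 * h * (1 / 2) ^ n := by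
    intro n
    induction n with
    | zero => simp
    | succ n ih =>
      rw [Nat.mul_succ, Finset.sum_range_add, ih,
        Finset.sum_congr rfl (g := fun _ => (1 / 2 : ℝ) ^ n) fun k hk => by
          rw [Nat.mul_add_div hh, Nat.div_eq_of_lt (Finset.mem_range.1 hk), Nat.add_zero]]
      simp only [Finset.sum_const, Finset.card_range, nsmul_eq_mul]
      ring
  have h1 : ∑ k ∈ Finset.range N, (1 / 2 : ℝ) ^ (k / h) ≤
      ∑ k ∈ Finset.range (h * N), (1 / 2 : ℝ) ^ (k / h) :=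
    Finset.sum_le_sum_of_subset_of_nonneg
      (Finset.range_subset_range.2 (Nat.le_mul_of_pos_left _ hh)) fun _ _ _ => by positivity
  rw [key] at h1
  have : (0 : ℝ) ≤ 2 * h * (1 / 2) ^ N := by positivity
  linarith

theorem pigeon {α : Type} (L : Finset α) {N : ℕ} (hN : 0 < N) (P : ℕ → α → Prop)
    [∀ j, DecidablePred (P j)] (hP : ∀ a j j', j < N → j' < N → P j a → P j' a → j = j') :
    ∃ j, N * (L.filter (P j)).card ≤ L.card := by
  classical
  have h1 : ∑ j ∈ Finset.range N, (L.filter (P j)).card ≤ L.card := by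
    rw [← Finset.card_biUnion]
    · exact Finset.card_le_card (Finset.biUnion_subset.2 fun _ _ => Finset.filter_subset _ _)
    · intro j hj j' hj' hne
      refine Finset.disjoint_left.2 fun a ha ha' => hne ?_
      exact hP a j j' (Finset.mem_range.1 hj) (Finset.mem_range.1 hj')
        (Finset.mem_filter.1 ha).2 (Finset.mem_filter.1 ha').2
  obtain ⟨j, hj, hm⟩ := Finset.exists_min_image (Finset.range N)
    (fun j => (L.filter (P j)).card) ⟨0, Finset.mem_range.2 hN⟩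
  refine ⟨j, le_trans ?_ h1⟩
  have := Finset.card_nsmul_le_sum (Finset.range N) _ _ hm
  simpa using this

/-- Candidate vertices for the level-`k` grid lines. -/
noncomputable def Lat (Γ : Finset (ℤ × ℤ)) (k : ℕ) : Finset (ℤ × ℤ) :=
  Γ.biUnion fun γ => (Finset.Icc (γ.1 / 2 ^ (k - 2) - 160) (γ.1 / 2 ^ (k - 2) + 160) ×ˢ
    Finset.Icc (γ.2 / 2 ^ (k - 2) - 160) (γ.2 / 2 ^ (k - 2) + 160)).image
      fun u => (2 ^ (k - 2) * u.1, 2 ^ (k - 2) * u.2)

theorem card_Lat (Γ : Finset (ℤ × ℤ)) (k : ℕ) : (Lat Γ k).card ≤ 321 ^ 2 * Γ.card := by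
  refine Finset.card_biUnion_le.trans ?_
  rw [mul_comm]
  refine Finset.sum_le_card_nsmul _ _ _ fun γ _ => Finset.card_image_le.trans (le_of_eq ?_)
  rw [Finset.card_product, Int.card_Icc, Int.card_Icc]
  have e1 : (γ.1 / 2 ^ (k - 2) + 160 + 1 - (γ.1 / 2 ^ (k - 2) - 160)).toNat = 321 := by omega
  have e2 : (γ.2 / 2 ^ (k - 2) + 160 + 1 - (γ.2 / 2 ^ (k - 2) - 160)).toNat = 321 := by omega
  rw [e1, e2]; norm_num

theorem mem_Lat {Γ : Finset (ℤ × ℤ)} {k : ℕ} {v : ℤ × ℤ} (h1 : 2 ^ (k - 2) ∣ v.1)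
    (h2 : 2 ^ (k - 2) ∣ v.2) (h : Wd Γ (160 * 2 ^ (k - 2)) v) : v ∈ Lat Γ k := by
  obtain ⟨γ, hγ, a1, a2, a3, a4⟩ := h
  have hT : (0 : ℤ) < 2 ^ (k - 2) := by positivity
  have b1 := ediv_sub_le hT _ _ _ a1
  have b2 := ediv_sub_le hT _ _ _ a2
  have b3 := ediv_sub_le hT _ _ _ a3
  have b4 := ediv_sub_le hT _ _ _ a4
  refine Finset.mem_biUnion.2 ⟨γ, hγ, Finset.mem_image.2
    ⟨(v.1 / 2 ^ (k - 2), v.2 / 2 ^ (k - 2)), ?_, ?_⟩⟩
  · simp only [Finset.mem_product, Finset.mem_Icc]; omega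
  · rw [Int.mul_ediv_cancel' h1, Int.mul_ediv_cancel' h2]

open Classical in
theorem exists_shift (p : ℕ) (L : ℕ → Finset (ℤ × ℤ)) (f : ℤ × ℤ → ℤ) :
    ∃ s : ℕ → ℕ, ∀ k, 2 ^ (k / p) * ((L k).filter fun v => Line p s k (f v)).card ≤ (L k).card := by
  have : ∀ k, ∃ j : ℕ, 2 ^ (k / p) * ((L k).filter fun v =>
      Line p (fun _ => j) k (f v)).card ≤ (L k).card := fun k =>
    pigeon (L k) (by positivity) (fun j v => Line p (fun _ => j) k (f v))
      fun a j j' hj hj' h h' => by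
        have h1 := dvd_sub h' h
        rw [show f a - 2 ^ k * (2 * (j' : ℤ) + 1) - (f a - 2 ^ k * (2 * (j : ℤ) + 1)) =
          2 ^ (k + 1) * ((j : ℤ) - j') by ring, pow_add (2 : ℤ) (k + 1),
          mul_dvd_mul_iff_left (by positivity)] at h1
        have a1 : (j : ℤ) < 2 ^ (k / p) := by exact_mod_cast hj
        have a2 : (j' : ℤ) < 2 ^ (k / p) := by exact_mod_cast hj'
        have := Int.eq_zero_of_abs_lt_dvd h1 (by rw [abs_lt]; omega)
        omega
  choose s hs using this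
  exact ⟨s, hs⟩

/-- Labels of level `i`. -/
noncomputable def Labs (Γ : Finset (ℤ × ℤ)) (p : ℕ) (s₁ s₂ : ℕ → ℕ) (i : ℕ) :
    Finset (ℕ × ℤ × ℤ) :=
  Γ.biUnion fun γ => {i} ×ˢ (Finset.Icc (gr p s₁ i γ.1 - 20) (gr p s₁ i γ.1 + 20) ×ˢ
    Finset.Icc (gr p s₂ i γ.2 - 20) (gr p s₂ i γ.2 + 20))

variable {Γ : Finset (ℤ × ℤ)} {p : ℕ} {s₁ s₂ : ℕ → ℕ}

theorem card_Labs (i : ℕ) : (Labs Γ p s₁ s₂ i).card ≤ 41 ^ 2 * Γ.card := by
  refine Finset.card_biUnion_le.trans ?_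
  rw [mul_comm]
  refine Finset.sum_le_card_nsmul _ _ _ fun γ _ => le_of_eq ?_
  rw [Finset.card_product, Finset.card_product, Int.card_Icc, Int.card_Icc]
  have e1 : (gr p s₁ i γ.1 + 20 + 1 - (gr p s₁ i γ.1 - 20)).toNat = 41 := by omega
  have e2 : (gr p s₂ i γ.2 + 20 + 1 - (gr p s₂ i γ.2 - 20)).toNat = 41 := by omega
  rw [e1, e2]; norm_num

theorem fst_Labs {i : ℕ} {a : ℕ × ℤ × ℤ} (h : a ∈ Labs Γ p s₁ s₂ i) : a.1 = i := by
  obtain ⟨γ, -, h⟩ := Finset.mem_biUnion.1 h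
  exact Finset.mem_singleton.1 (Finset.mem_product.1 h).1

theorem wd_of_lay (hΓ : Γ.Nonempty) (z : ℤ × ℤ) : Wd Γ (5 * 2 ^ (lay Γ z + 2)) z :=
  wd_of_ht hΓ (i := lay Γ z + 1) (by unfold lay; omega)

theorem mem_Labs (hΓ : Γ.Nonempty) (z : ℤ × ℤ) : lab Γ p s₁ s₂ z ∈ Labs Γ p s₁ s₂ (lay Γ z) := by
  obtain ⟨γ, hγ, a1, a2, a3, a4⟩ := wd_of_lay hΓ z
  unfold lab
  generalize lay Γ z = i at *
  have hT : (0 : ℤ) < 2 ^ (i + 1 + i / p) := by positivity
  have hle : (2 : ℤ) ^ (i + 2) ≤ 2 * 2 ^ (i + 1 + i / p) := by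
    rw [← pow_succ']
    exact pow_le_pow_right₀ (by norm_num) (by generalize i / p = j; omega)
  have key : ∀ (s : ℕ → ℕ) (a b : ℤ), a - b ≤ 5 * 2 ^ (i + 2) → gr p s i a - gr p s i b ≤ 20 :=
    fun s a b h => ediv_sub_le hT 20 _ _ (by omega)
  have b1 := key s₁ _ _ a1
  have b2 := key s₁ _ _ a2
  have b3 := key s₂ _ _ a3
  have b4 := key s₂ _ _ a4
  refine Finset.mem_biUnion.2 ⟨γ, hγ, ?_⟩
  simp only [Finset.mem_product, Finset.mem_Icc, Finset.mem_singleton, true_and]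
  omega

theorem box_of_gr {i : ℕ} {s : ℕ → ℕ} {a : ℤ} :
    2 ^ (i + 1 + i / p) * gr p s i a + 2 ^ i * (2 * s i + 1) ≤ a ∧
      a < 2 ^ (i + 1 + i / p) * gr p s i a + 2 ^ i * (2 * s i + 1) + 2 ^ (i + 1 + i / p) := by
  have hT : (0 : ℤ) < 2 ^ (i + 1 + i / p) := by positivity
  have a1 := Int.mul_ediv_add_emod (a - 2 ^ i * (2 * s i + 1)) (2 ^ (i + 1 + i / p))
  have a3 := Int.emod_nonneg (a - 2 ^ i * (2 * s i + 1)) hT.ne'
  have a5 := Int.emod_lt_of_pos (a - 2 ^ i * (2 * s i + 1)) hT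
  unfold gr
  omega

/-- A four-valent vertex of the colouring. -/
def Vx (Γ : Finset (ℤ × ℤ)) (p : ℕ) (s₁ s₂ : ℕ → ℕ) (v : ℤ × ℤ) : Prop :=
  7 ≤ lay Γ v ∧ 2 ^ (lay Γ v - 2) ∣ v.1 ∧ 2 ^ (lay Γ v - 2) ∣ v.2 ∧
    ∀ y, Box v (4 * 2 ^ (lay Γ v - 6)) y → chk (col Γ p s₁ s₂ v) v y = col Γ p s₁ s₂ y

theorem vx_sep (hΓ : Γ.Nonempty) {v v' : ℤ × ℤ} (h : Vx Γ p s₁ s₂ v) (h' : Vx Γ p s₁ s₂ v')
    (hne : v ≠ v') (z : ℤ × ℤ) (hz : Box v (2 * 2 ^ (lay Γ v - 6)) z) :
    ¬ Box v' (4 * 2 ^ (lay Γ v' - 6)) z := by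
  intro hz'
  obtain ⟨a1, a2, a3, -⟩ := h
  obtain ⟨b1, b2, b3, -⟩ := h'
  have mono : ∀ {a b : ℕ}, a ≤ b → (2 : ℤ) ^ a ≤ 2 ^ b := fun h =>
    pow_le_pow_right₀ (by norm_num) h
  have p6 : ∀ l, 6 ≤ l → (2 : ℤ) ^ l = 64 * 2 ^ (l - 6) := fun l hl => by
    rw [show (64 : ℤ) = 2 ^ 6 by norm_num, ← pow_add]; congr 1; omega
  have pos : ∀ l : ℕ, (0 : ℤ) < 2 ^ l := fun l => by positivity
  have c1 : lay Γ v' ≤ lay Γ v + 1 := by
    by_contra hcon
    have := ht_near hΓ (i := lay Γ v') (z := v') (y := v) (by omega) le_rfl (by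
      have := mono (show lay Γ v - 6 ≤ lay Γ v' - 6 by omega)
      have := p6 (lay Γ v') (by omega)
      have := pos (lay Γ v - 6)
      unfold Box Near at *; omega)
    unfold lay at *; omega
  have c2 : lay Γ v ≤ lay Γ v' + 1 := by
    by_contra hcon
    have := ht_near hΓ (i := lay Γ v) (z := v) (y := v') (by omega) le_rfl (by
      have := mono (show lay Γ v' - 6 ≤ lay Γ v - 6 by omega)
      have := p6 (lay Γ v) (by omega)
      have := pos (lay Γ v' - 6)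
      unfold Box Near at *; omega)
    unfold lay at *; omega
  set m := min (lay Γ v) (lay Γ v') - 2 with hm
  have d1 : (2 : ℤ) ^ m ∣ v.1 - v'.1 :=
    dvd_sub ((pow_dvd_pow 2 (by omega)).trans a2) ((pow_dvd_pow 2 (by omega)).trans b2)
  have d2 : (2 : ℤ) ^ m ∣ v.2 - v'.2 :=
    dvd_sub ((pow_dvd_pow 2 (by omega)).trans a3) ((pow_dvd_pow 2 (by omega)).trans b3)
  have e1 := mono (show lay Γ v - 6 ≤ m - 3 by omega)
  have e2 := mono (show lay Γ v' - 6 ≤ m - 3 by omega)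
  have e3 : (2 : ℤ) ^ m = 8 * 2 ^ (m - 3) := by
    rw [show (8 : ℤ) = 2 ^ 3 by norm_num, ← pow_add]; congr 1; omega
  have e4 := pos (m - 3)
  have f1 := Int.eq_zero_of_abs_lt_dvd d1 (by rw [abs_lt]; unfold Box at *; omega)
  have f2 := Int.eq_zero_of_abs_lt_dvd d2 (by rw [abs_lt]; unfold Box at *; omega)
  exact hne (Prod.ext (by omega) (by omega))

open Classical in
/-- Vertices on the level-`k` lines. -/
noncomputable def Vk (Γ : Finset (ℤ × ℤ)) (p : ℕ) (s₁ s₂ : ℕ → ℕ) (k : ℕ) : Finset (ℤ × ℤ) :=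
  (Lat Γ k).filter fun v =>
    (Line p s₁ k v.1 ∨ Line p s₂ k v.2) ∧ lay Γ v ≤ k + 1 ∧ Vx Γ p s₁ s₂ v

/-- Separation in terms of the vertex sets. -/
theorem sep_Vk (hΓ : Γ.Nonempty) {i : ℕ} (hi : 8 ≤ i) {z z' : ℤ × ℤ} (hz : lay Γ z = i)
    (hz' : i ≤ lay Γ z') (hn : Near (2 * 2 ^ (i - 8)) z z')
    (hc : col Γ p s₁ s₂ z = col Γ p s₁ s₂ z') (hl : lab Γ p s₁ s₂ z ≠ lab Γ p s₁ s₂ z') :
    ∃ k ≤ i + 1, ∃ v ∈ Vk Γ p s₁ s₂ k, Box v (2 ^ (lay Γ v - 6)) z := by
  classical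
  have mono : ∀ {a b : ℕ}, a ≤ b → (2 : ℤ) ^ a ≤ 2 ^ b := fun h =>
    pow_le_pow_right₀ (by norm_num) h
  have pos : ∀ l : ℕ, (0 : ℤ) < 2 ^ l := fun l => by positivity
  have e0 : (2 : ℤ) * 2 ^ (i - 8) = 2 ^ (i - 7) := by rw [← pow_succ']; congr 1; omega
  rw [e0] at hn
  obtain ⟨v, h1, h2, h3, h4, k, k1, k2, h5⟩ := sep hΓ (t := i - 1) (by omega) (by omega)
    (mono (by omega : i - 7 ≤ i - 1)) hn hc hl
  have l1 : 2 * i ≤ ht Γ v := ht_near hΓ (by omega) hz.ge (by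
    have := mono (by omega : i - 7 ≤ i)
    unfold Box Near at *; omega)
  have l2 : ht Γ v ≤ ht Γ z + 1 := ht_lip hΓ le_rfl (by
    have := mono (show i - 7 ≤ ht Γ z / 2 + 1 by unfold lay at hz; omega)
    unfold Box Near at *; omega)
  have l3 : i - 1 ≤ lay Γ v := by unfold lay; omega
  have l4 : lay Γ v ≤ i + 1 := by unfold lay at *; omega
  refine ⟨k, by omega, v, Finset.mem_filter.2 ⟨mem_Lat ((pow_dvd_pow 2 (by omega)).trans h2)
    ((pow_dvd_pow 2 (by omega)).trans h3) ?_, h5, by omega, by omega,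
    (pow_dvd_pow 2 (by omega)).trans h2, (pow_dvd_pow 2 (by omega)).trans h3, fun y hy => h4 y ?_⟩,
    ?_⟩
  · obtain ⟨γ, hγ, a⟩ := wd_of_lay hΓ v
    refine ⟨γ, hγ, ?_⟩
    have b1 := mono (show lay Γ v + 2 ≤ k - 2 + 5 by omega)
    rw [pow_add (2 : ℤ) (k - 2) 5] at b1
    unfold Near at *; omega
  · have b1 := mono (show lay Γ v - 6 + 2 ≤ i - 1 by omega)
    rw [pow_add] at b1
    unfold Box at *; omega
  · have b1 := mono (show i - 7 ≤ lay Γ v - 6 by omega)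
    unfold Box at *; omega

/-- Good shifts: the weighted number of vertices is linear in `Γ`. -/
theorem exists_shifts (Γ : Finset (ℤ × ℤ)) {p : ℕ} (hp : 1 ≤ p) :
    ∃ s₁ s₂ : ℕ → ℕ, ∀ N, ∑ v ∈ (Finset.range N).biUnion (Vk Γ p s₁ s₂),
      (2 : ℝ) ^ ((lay Γ v - 6) / (2 * p)) ≤ 16 * 321 ^ 2 * p * Γ.card := by
  classical
  obtain ⟨s₁, h₁⟩ := exists_shift p (Lat Γ) Prod.fst
  obtain ⟨s₂, h₂⟩ := exists_shift p (Lat Γ) Prod.snd
  refine ⟨s₁, s₂, fun N => (sum_biUnion_le _ _ _ fun _ => by positivity).trans ?_⟩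
  have key : ∀ k, ∑ v ∈ Vk Γ p s₁ s₂ k, (2 : ℝ) ^ ((lay Γ v - 6) / (2 * p)) ≤
      4 * 321 ^ 2 * Γ.card * (1 / 2) ^ (k / (2 * p)) := by
    intro k
    set m := k / (2 * p) with hm
    have a1 : ∑ v ∈ Vk Γ p s₁ s₂ k, (2 : ℝ) ^ ((lay Γ v - 6) / (2 * p)) ≤
        (Vk Γ p s₁ s₂ k).card • (2 : ℝ) ^ m := Finset.sum_le_card_nsmul _ _ _ fun v hv =>
      pow_le_pow_right₀ (by norm_num) (Nat.div_le_div_right (by
        have := (Finset.mem_filter.1 hv).2.2.1; omega))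
    have a2 : (Vk Γ p s₁ s₂ k).card ≤ ((Lat Γ k).filter fun v => Line p s₁ k v.1).card +
        ((Lat Γ k).filter fun v => Line p s₂ k v.2).card := by
      refine le_trans (Finset.card_le_card fun v hv => ?_) (Finset.card_union_le _ _)
      obtain ⟨b1, b2, -⟩ := Finset.mem_filter.1 hv
      simp only [Finset.mem_union, Finset.mem_filter]
      tauto
    have a3 : 2 ^ (2 * m) ≤ 2 ^ (k / p) := Nat.pow_le_pow_right (by norm_num) (by
      rw [Nat.le_div_iff_mul_le hp]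
      have := Nat.div_mul_le_self k (2 * p)
      nlinarith)
    have a4 : 2 ^ (2 * m) * (Vk Γ p s₁ s₂ k).card ≤ 2 * (321 ^ 2 * Γ.card) := by
      have b1 := h₁ k
      have b2 := h₂ k
      have b3 := card_Lat Γ k
      calc 2 ^ (2 * m) * (Vk Γ p s₁ s₂ k).card ≤ 2 ^ (k / p) * (_ + _) := Nat.mul_le_mul a3 a2
        _ ≤ _ := by rw [mul_add]; omega
    have a5 : (2 : ℝ) ^ (2 * m) * (Vk Γ p s₁ s₂ k).card ≤ 2 * (321 ^ 2 * Γ.card) := by
      exact_mod_cast a4
    rw [nsmul_eq_mul] at a1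
    refine a1.trans ?_
    have a6 : (0 : ℝ) < 2 ^ m := by positivity
    rw [one_div, inv_pow, ← div_eq_mul_inv, le_div_iff₀ a6]
    rw [two_mul m, pow_add] at a5
    have : (0 : ℝ) ≤ Γ.card := by positivity
    nlinarith
  refine (Finset.sum_le_sum fun k _ => key k).trans ?_
  rw [← Finset.mul_sum]
  have := sum_half_div (h := 2 * p) (by omega) N
  push_cast at this
  have h0 : (0 : ℝ) ≤ 4 * 321 ^ 2 * Γ.card := by positivity
  nlinarith [mul_le_mul_of_nonneg_left this h0]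

theorem sum_Labs (N : ℕ) : ∑ a ∈ (Finset.range N).biUnion (Labs Γ p s₁ s₂),
    (1 / 2 : ℝ) ^ a.1 ≤ 2 * 41 ^ 2 * Γ.card := by
  refine (sum_biUnion_le _ _ _ fun _ => by positivity).trans ?_
  have key : ∀ i, ∑ a ∈ Labs Γ p s₁ s₂ i, (1 / 2 : ℝ) ^ a.1 ≤ 41 ^ 2 * Γ.card * (1 / 2) ^ (i / 1) := by
    intro i
    rw [Finset.sum_congr rfl (g := fun _ => (1 / 2 : ℝ) ^ i) fun a ha => by rw [fst_Labs ha],
      Finset.sum_const, nsmul_eq_mul, Nat.div_one]
    have : ((Labs Γ p s₁ s₂ i).card : ℝ) ≤ 41 ^ 2 * Γ.card := by exact_mod_cast card_Labs i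
    gcongr
  refine (Finset.sum_le_sum fun k _ => key k).trans ?_
  rw [← Finset.mul_sum]
  have := sum_half_div (h := 1) le_rfl N
  push_cast at this
  have h0 : (0 : ℝ) ≤ 41 ^ 2 * Γ.card := by positivity
  nlinarith [mul_le_mul_of_nonneg_left this h0]

end Crest.Agent.N336.Area
end

-- ▼ part N336/Area/Main
section

/-!
# Row 336: the area law from thin-buffer decoupling (helper51)
-/

set_option autoImplicit false

namespace Crest.Agent.N336.Area

variable {Λ : Type} [DecidableEq Λ] {g : ℕ} {C : ℝ}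

/-- A one-colour family avoiding all vertices has cost linear in `Γ`. -/
theorem patches (K : Ctx Λ g C) (hg : 1 ≤ g) (hC : 0 ≤ C) (hΓ : K.Γ.Nonempty) (s₁ s₂ : ℕ → ℕ)
    (F : Finset Λ) (hF : F ⊆ K.A) (h0 : ∀ x ∈ F, 52 * g ≤ lay K.Γ (K.pos x))
    (hsep : ∀ x ∈ F, ∀ y ∈ F, lay K.Γ (K.pos x) ≤ lay K.Γ (K.pos y) →
      Near (2 * 2 ^ (lay K.Γ (K.pos x) - 8)) (K.pos x) (K.pos y) →
      lab K.Γ (4 * g) s₁ s₂ (K.pos x) = lab K.Γ (4 * g) s₁ s₂ (K.pos y)) :
    K.φ F ≤ K.φ ∅ + C * (2 * 41 ^ 2 * K.Γ.card) := by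
  have key : ∀ L : Finset (ℕ × ℤ × ℤ),
      K.φ (F.filter fun x => lab K.Γ (4 * g) s₁ s₂ (K.pos x) ∈ L) ≤
        K.φ ∅ + C * ∑ a ∈ L, (1 / 2 : ℝ) ^ a.1 := by
    intro L
    induction L using Finset.induction_on_min_value (fun a : ℕ × ℤ × ℤ => a.1) with
    | empty => simp
    | insert a L ha hmin ih =>
      rw [Finset.sum_insert ha]
      set X := F.filter fun x => lab K.Γ (4 * g) s₁ s₂ (K.pos x) ∈ L
      set X' := F.filter fun x => lab K.Γ (4 * g) s₁ s₂ (K.pos x) = a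
      have e : (F.filter fun x => lab K.Γ (4 * g) s₁ s₂ (K.pos x) ∈ insert a L) = X ∪ X' := by
        ext x
        simp only [X, X', Finset.mem_filter, Finset.mem_union, Finset.mem_insert]; tauto
      rw [e]
      have hp : 0 ≤ C * (1 / 2 : ℝ) ^ a.1 := by positivity
      rcases X'.eq_empty_or_nonempty with h | ⟨x₀, hx₀⟩
      · rw [h, Finset.union_empty]; linarith
      obtain ⟨i, u, v⟩ := a
      have hX' : ∀ x ∈ X', x ∈ F ∧ lay K.Γ (K.pos x) = i ∧ gr (4 * g) s₁ i (K.pos x).1 = u ∧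
          gr (4 * g) s₂ i (K.pos x).2 = v := fun x hx => by
        obtain ⟨a1, a2⟩ := Finset.mem_filter.1 hx
        simp only [lab, Prod.mk.injEq] at a2
        obtain ⟨rfl, a3, a4⟩ := a2
        exact ⟨a1, rfl, a3, a4⟩
      have hi : 52 * g ≤ i := (hX' x₀ hx₀).2.1 ▸ h0 x₀ (hX' x₀ hx₀).1
      have := K.step X X' (2 ^ (i + 1 + i / (4 * g)) * u + 2 ^ i * (2 * s₁ i + 1),
          2 ^ (i + 1 + i / (4 * g)) * v + 2 ^ i * (2 * s₂ i + 1)) (i + 1 + i / (4 * g)) (i - 8)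
        ((Finset.filter_subset _ _).trans hF) ((Finset.filter_subset _ _).trans hF)
        (by generalize i / (4 * g) = j; omega)
        (by
          have a1 : i / (4 * g) = i / g / 4 := by rw [Nat.div_div_eq_div_mul, mul_comm]
          have a2 : 52 ≤ i / g := (Nat.le_div_iff_mul_le hg).2 hi
          have a3 : i / g ≤ (2 * (i + 1 + i / (4 * g)) - (i - 8) + 8) / g :=
            Nat.div_le_div_right (by generalize i / (4 * g) = j; omega)
          generalize (2 * (i + 1 + i / (4 * g)) - (i - 8) + 8) / g = j at *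
          rw [a1]
          generalize i / g = m at *
          omega)
        (fun x hx => by
          obtain ⟨-, -, a3, a4⟩ := hX' x hx
          have b1 := box_of_gr (p := 4 * g) (i := i) (s := s₁) (a := (K.pos x).1)
          have b2 := box_of_gr (p := 4 * g) (i := i) (s := s₂) (a := (K.pos x).2)
          rw [a3] at b1
          rw [a4] at b2
          have : (0 : ℤ) < 2 ^ (i + 1 + i / (4 * g)) := by positivity
          unfold Box; simp only; omega)
        (fun x hx y hy hn => by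
          obtain ⟨a1, a2, -, -⟩ := hX' x hx
          obtain ⟨b1, b2⟩ := Finset.mem_filter.1 hy
          have b3 : i ≤ lay K.Γ (K.pos y) := hmin _ b2
          have := hsep x a1 y b1 (by omega) (by rwa [a2])
          rw [(Finset.mem_filter.1 hx).2] at this
          exact ha (this ▸ b2))
        (fun x hx γ hγ hn => by
          refine far_gam hΓ (i := i) (by omega) (hX' x hx).2.1.ge ⟨γ, hγ, ?_⟩
          have b1 : (2 : ℤ) ^ (i - 8) ≤ 2 ^ (i + 1) := pow_le_pow_right₀ (by norm_num) (by omega)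
          have : (0 : ℤ) < 2 ^ (i + 1) := by positivity
          unfold Near at *; omega)
      have h2 : C / 2 ^ (i + 1 + i / (4 * g)) ≤ C * (1 / 2 : ℝ) ^ i := by
        rw [one_div, inv_pow, ← div_eq_mul_inv]
        exact div_le_div_of_nonneg_left hC (by positivity)
          (pow_le_pow_right₀ (by norm_num) (by generalize i / (4 * g) = j; omega))
      simp only at *
      linarith
  set N := F.sup (fun x => lay K.Γ (K.pos x)) + 1
  have h1 := key ((Finset.range N).biUnion (Labs K.Γ (4 * g) s₁ s₂))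
  rw [Finset.filter_true_of_mem fun x hx => Finset.mem_biUnion.2 ⟨_, Finset.mem_range.2
    (Nat.lt_succ_of_le (Finset.le_sup (f := fun x => lay K.Γ (K.pos x)) hx)), mem_Labs hΓ _⟩] at h1
  have h2 := mul_le_mul_of_nonneg_left (sum_Labs (Γ := K.Γ) (p := 4 * g) (s₁ := s₁) (s₂ := s₂) N) hC
  linarith

theorem card_low (K : Ctx Λ g C) (hΓ : K.Γ.Nonempty) (n : ℕ) :
    (K.A.filter fun x => lay K.Γ (K.pos x) < n).card ≤ (2 * (5 * 2 ^ (n + 1) + 1)) ^ 2 * K.Γ.card := by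
  have : (K.A.filter fun x => lay K.Γ (K.pos x) < n) ⊆ K.Γ.biUnion fun γ =>
      K.A.filter fun x => Box γ (5 * 2 ^ (n + 1) + 1 : ℕ) (K.pos x) := fun x hx => by
    obtain ⟨a1, a2⟩ := Finset.mem_filter.1 hx
    obtain ⟨γ, hγ, h⟩ := wd_of_ht hΓ (i := n) (z := K.pos x) (by unfold lay at a2; omega)
    refine Finset.mem_biUnion.2 ⟨γ, hγ, Finset.mem_filter.2 ⟨a1, ?_⟩⟩
    push_cast
    unfold Box Near at *; omega
  refine (Finset.card_le_card this).trans (Finset.card_biUnion_le.trans ?_)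
  rw [mul_comm _ K.Γ.card]
  exact Finset.sum_le_card_nsmul _ _ _ fun γ _ =>
    card_box K γ _ _ fun x hx => (Finset.mem_filter.1 hx).2

theorem no_boundary (K : Ctx Λ g C) (hg : 1 ≤ g) (hΓ : K.Γ = ∅) :
    K.φ K.A ≤ K.φ ∅ := by
  set M := K.A.sup fun x => (K.pos x).1.natAbs + (K.pos x).2.natAbs
  have key : ∀ w, 8 * g + M ≤ w → K.φ K.A ≤ K.φ ∅ + C / 2 ^ w := fun w hw => by
    have := K.step ∅ K.A (0, 0) w w (Finset.empty_subset _) le_rfl le_rfl
      (by
        have : 8 ≤ (2 * w - w + 8) / g := (Nat.le_div_iff_mul_le hg).2 (by omega)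
        omega)
      (fun x hx => by
        have a1 : (K.pos x).1.natAbs + (K.pos x).2.natAbs ≤ M :=
          Finset.le_sup (f := fun x => (K.pos x).1.natAbs + (K.pos x).2.natAbs) hx
        have a2 : (w : ℤ) < 2 ^ w := by exact_mod_cast Nat.lt_two_pow_self
        unfold Box; simp only; omega)
      (by simp) (by simp [hΓ])
    rwa [Finset.empty_union] at this
  refine le_of_forall_pos_le_add fun ε hε => ?_
  obtain ⟨n, hn⟩ := exists_nat_gt (C / ε)
  have h1 := key (8 * g + M + n) (by omega)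
  have h2 : (n : ℝ) ≤ 2 ^ (8 * g + M + n) := by
    exact_mod_cast (Nat.le_add_left n _).trans Nat.lt_two_pow_self.le
  have h3 : C / 2 ^ (8 * g + M + n) ≤ ε := by
    rw [div_le_iff₀ (by positivity)]
    rw [div_lt_iff₀ hε] at hn
    nlinarith
  linarith

/-- The geometric theorem: two families and a small discarded set. -/
theorem geo (g : ℕ) (hg : 1 ≤ g) {C lam : ℝ} (hC : 0 ≤ C) (hl : 0 ≤ lam) :
    ∃ M : ℝ, 0 ≤ M ∧ ∀ (Λ : Type) [DecidableEq Λ] (K : Ctx Λ g C), ∃ X Y D : Finset Λ,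
      X ⊆ K.A ∧ Y ⊆ K.A ∧ K.A ⊆ X ∪ Y ∪ D ∧
        K.φ X + K.φ Y + lam * D.card ≤ 2 * K.φ ∅ + M * K.Γ.card := by
  classical
  obtain ⟨B, hB, HB⟩ := res_exists g (2 * (4 * g)) hg (by omega) hC hl
  refine ⟨2 * (C * (2 * 41 ^ 2)) + B * (16 * 321 ^ 2 * (4 * g : ℕ)) +
    lam * ((2 * (5 * 2 ^ (52 * g + 1) + 1)) ^ 2 : ℕ), by positivity, fun Λ _ K => ?_⟩
  rcases K.Γ.eq_empty_or_nonempty with hΓ | hΓ
  · refine ⟨K.A, K.A, ∅, le_rfl, le_rfl, by simp, ?_⟩
    have := no_boundary K hg hΓ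
    rw [hΓ]; simp only [Finset.card_empty, Nat.cast_zero, mul_zero]; linarith
  obtain ⟨s₁, s₂, hs⟩ := exists_shifts K.Γ (p := 4 * g) (by omega)
  set N := K.A.sup (fun x => lay K.Γ (K.pos x)) + 2
  set V := (Finset.range N).biUnion (Vk K.Γ (4 * g) s₁ s₂)
  have hV : ∀ v ∈ V, Vx K.Γ (4 * g) s₁ s₂ v := fun v hv => by
    obtain ⟨k, -, h⟩ := Finset.mem_biUnion.1 hv
    exact (Finset.mem_filter.1 h).2.2.2
  have hU : ∀ v : ℤ × ℤ, ∃ U, v ∈ V → Res K lam U v (2 ^ (lay K.Γ v - 6))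
      (B * 2 ^ ((lay K.Γ v - 6) / (2 * (4 * g)))) := fun v => by
    by_cases hv : v ∈ V
    · obtain ⟨U, h⟩ := HB Λ K (lay K.Γ v - 6) v fun γ hγ hb => by
        refine far_gam hΓ (i := lay K.Γ v) (by have := (hV v hv).1; omega) le_rfl ⟨γ, hγ, ?_⟩
        have b1 : (2 : ℤ) ^ (lay K.Γ v - 6) ≤ 2 ^ (lay K.Γ v + 1) :=
          pow_le_pow_right₀ (by norm_num) (by omega)
        unfold Box Near at *; omega
      exact ⟨U, fun _ => h⟩
    · exact ⟨∅, fun h => absurd h hv⟩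
  choose U hU using hU
  set F : Bool → Finset Λ := fun b => (K.A \ V.biUnion U).filter fun x =>
    52 * g ≤ lay K.Γ (K.pos x) ∧ col K.Γ (4 * g) s₁ s₂ (K.pos x) = b
  have hF : ∀ b, ∀ x ∈ F b, x ∈ K.A ∧ x ∉ V.biUnion U ∧ 52 * g ≤ lay K.Γ (K.pos x) ∧
      col K.Γ (4 * g) s₁ s₂ (K.pos x) = b := fun b x hx => by
    obtain ⟨a1, a2⟩ := Finset.mem_filter.1 hx
    exact ⟨(Finset.mem_sdiff.1 a1).1, (Finset.mem_sdiff.1 a1).2, a2⟩
  have hP : ∀ b, K.φ (F b) ≤ K.φ ∅ + C * (2 * 41 ^ 2 * K.Γ.card) := fun b =>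
    patches K hg hC hΓ s₁ s₂ (F b) (fun x hx => (hF b x hx).1) (fun x hx => (hF b x hx).2.2.1)
      fun x hx y hy hxy hn => by
        by_contra hne
        obtain ⟨a1, a2, a3, a4⟩ := hF b x hx
        obtain ⟨k, hk, v, hv, hb⟩ := sep_Vk hΓ (by omega) rfl hxy hn
          (a4.trans (hF b y hy).2.2.2.symm) hne
        have hvV : v ∈ V := Finset.mem_biUnion.2 ⟨k, Finset.mem_range.2 (by
          have : lay K.Γ (K.pos x) ≤ K.A.sup fun x => lay K.Γ (K.pos x) :=
            Finset.le_sup (f := fun x => lay K.Γ (K.pos x)) a1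
          omega), hv⟩
        exact a2 (Finset.mem_biUnion.2 ⟨v, hvV, (hU v hvV).2.1 x a1 hb⟩)
  obtain ⟨F', D, k1, k2, k3, k4⟩ := multi K hl V U id (fun v => 2 ^ (lay K.Γ v - 6))
    (fun v => B * 2 ^ ((lay K.Γ v - 6) / (2 * (4 * g)))) (col K.Γ (4 * g) s₁ s₂)
    (fun _ _ => by positivity) hU
    (fun v hv v' hv' hne z hz => vx_sep hΓ (hV v hv) (hV v' hv') hne z hz) F
    (fun b x hx => (hF b x hx).1)
    (fun v hv b => Finset.disjoint_left.2 fun x hx hxU =>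
      (hF b x hx).2.1 (Finset.mem_biUnion.2 ⟨v, hv, hxU⟩))
    (fun v hv b x hx hb => ((hV v hv).2.2.2 _ hb).trans (hF b x hx).2.2.2)
  have hA : ∀ b, F' b ⊆ K.A := fun b x hx => by
    rcases Finset.mem_union.1 (k2 b hx) with h | h
    · exact (hF b x h).1
    · obtain ⟨v, hv, h⟩ := Finset.mem_biUnion.1 h
      exact (hU v hv).1 h
  set D₀ := K.A.filter fun x => lay K.Γ (K.pos x) < 52 * g
  refine ⟨F' true, F' false, D ∪ D₀, hA _, hA _, fun x hx => ?_, ?_⟩
  · by_cases h1 : x ∈ V.biUnion U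
    · have := k3 h1
      simp only [Finset.mem_union] at this ⊢; tauto
    by_cases h2 : lay K.Γ (K.pos x) < 52 * g
    · exact Finset.mem_union_right _ (Finset.mem_union_right _ (Finset.mem_filter.2 ⟨hx, h2⟩))
    have h3 : x ∈ F' (col K.Γ (4 * g) s₁ s₂ (K.pos x)) :=
      k1 _ (Finset.mem_filter.2 ⟨Finset.mem_sdiff.2 ⟨hx, h1⟩, by omega, rfl⟩)
    cases hb : col K.Γ (4 * g) s₁ s₂ (K.pos x) <;> rw [hb] at h3 <;>
      simp only [Finset.mem_union] <;> tauto
  · have a1 : ((D ∪ D₀).card : ℝ) ≤ D.card + D₀.card := by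
      exact_mod_cast Finset.card_union_le D D₀
    have a2 : (D₀.card : ℝ) ≤ ((2 * (5 * 2 ^ (52 * g + 1) + 1)) ^ 2 : ℕ) * K.Γ.card := by
      exact_mod_cast card_low K hΓ (52 * g)
    have a3 := mul_le_mul_of_nonneg_left (hs N) hB
    rw [← Finset.mul_sum] at k4
    have a4 := hP true
    have a5 := hP false
    have a6 := mul_le_mul_of_nonneg_left (a1.trans (add_le_add le_rfl a2)) hl
    unfold Ctx.Φ at k4
    generalize (((2 * (5 * 2 ^ (52 * g + 1) + 1)) ^ 2 : ℕ) : ℝ) = E at *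
    nlinarith

end Crest.Agent.N336.Area

namespace Crest.Agent.N336

open Area in
/-- The area law from thin-buffer decoupling. -/
theorem area (hE : EntStmt) (hT : TBStmt) : AreaStmt := by
  intro q R J Δ hq hJ hΔ
  obtain ⟨g, C, hg, hC, H⟩ := exists_ctx hE hT q R J Δ hq hJ hΔ
  have hl : 0 ≤ 2 * Real.log q := mul_nonneg (by norm_num) (Real.log_natCast_nonneg q)
  obtain ⟨M, hM, HM⟩ := geo g hg hC hl
  refine ⟨M + 1, by positivity, fun Λ _ _ s A => ?_⟩
  obtain ⟨K, hA, hΓ, hφ⟩ := H Λ s A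
  obtain ⟨X, Y, D, h1, h2, h3, h4⟩ := HM Λ K
  obtain ⟨hc, hb, hs, -⟩ := hE q Λ s.Ω s.gap.1
  rw [hA] at h1 h2 h3
  rw [hφ, hΓ] at h4
  have h5 := two_family hs hc hb h1 h2 h3
  have h6 : MI s.Ω ∅ Aᶜ ≤ 0 := by
    have := (hb ∅).2
    unfold MI
    rw [Finset.empty_union]
    simp only [Finset.card_empty, Nat.cast_zero, zero_mul] at this
    linarith
  have h7 : ((gam s A).card : ℝ) ≤ s.bd A := by exact_mod_cast card_gam s A
  have h8 : (0 : ℝ) ≤ s.bd A := by positivity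
  simp only at h4
  nlinarith [mul_le_mul_of_nonneg_left h7 hM]

end Crest.Agent.N336
end

-- ▼ part N336/P/RT
section

/-!
# Row 336, routing lemma `rt : RTStmt` (helper43)

`route` : a sum over global labels of a product of site tensors, each reading only the labels whose
(connected) route passes through the site, is a PEPS with bond dimension `V ^ κ`.
-/

set_option autoImplicit false

namespace Crest.Agent.N336.P

open Crest.MathPhysics.LatticeSpin

namespace RT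

section code

variable {W : Type} [Fintype W] [DecidableEq W] {V κ : ℕ}

/-- Code of the restriction of a labelling to a set of at most `κ` variables. -/
noncomputable def enc (hV : 1 ≤ V) (S : Finset W) (hS : S.card ≤ κ) (x : W → Fin V) :
    Fin (V ^ κ) :=
  Fin.castLE (Nat.pow_le_pow_right hV hS)
    (Fintype.equivFinOfCardEq (α := ↥S → Fin V) (n := V ^ S.card) (by simp) fun v => x v)

omit [Fintype W] in
theorem enc_eq_iff (hV : 1 ≤ V) (S : Finset W) (hS : S.card ≤ κ) (x x' : W → Fin V) :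
    enc hV S hS x = enc hV S hS x' ↔ ∀ v ∈ S, x v = x' v := by
  unfold enc
  rw [(Fin.castLE_injective _).eq_iff, Equiv.apply_eq_iff_eq]
  constructor
  · intro h v hv
    exact congrFun h ⟨v, hv⟩
  · intro h
    funext v
    exact h v v.2

omit [Fintype W] in
theorem enc_val_of_empty (hV : 1 ≤ V) (S : Finset W) (hS : S.card ≤ κ) (x : W → Fin V)
    (h : S = ∅) : (enc hV S hS x).val = 0 := by
  have h1 : (enc hV S hS x).val < V ^ S.card := by
    unfold enc
    rw [Fin.val_castLE]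
    exact Fin.isLt _
  have h2 : V ^ S.card = 1 := by rw [h]; simp
  omega

end code

section grid

variable {L : ℕ} {W : Type} [Fintype W] [DecidableEq W]

open Classical in
/-- Variables carried by the horizontal bond `k` of row `i`. -/
noncomputable def hS (Rt : W → Finset (Fin L × Fin L)) (i : Fin L) (k : Fin (L + 1)) : Finset W :=
  Finset.univ.filter fun v => ∃ j j' : Fin L, j.succ = k ∧ j'.castSucc = k ∧
    (i, j) ∈ Rt v ∧ (i, j') ∈ Rt v

open Classical in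
/-- Variables carried by the vertical bond `k` of column `j`. -/
noncomputable def vS (Rt : W → Finset (Fin L × Fin L)) (k : Fin (L + 1)) (j : Fin L) : Finset W :=
  Finset.univ.filter fun v => ∃ i i' : Fin L, i.succ = k ∧ i'.castSucc = k ∧
    (i, j) ∈ Rt v ∧ (i', j) ∈ Rt v

variable (Rt : W → Finset (Fin L × Fin L))

omit [DecidableEq W] in
theorem mem_hS {i : Fin L} {k : Fin (L + 1)} {v : W} :
    v ∈ hS Rt i k ↔ ∃ j j' : Fin L, j.succ = k ∧ j'.castSucc = k ∧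
      (i, j) ∈ Rt v ∧ (i, j') ∈ Rt v := by
  simp [hS]

omit [DecidableEq W] in
theorem mem_vS {j : Fin L} {k : Fin (L + 1)} {v : W} :
    v ∈ vS Rt k j ↔ ∃ i i' : Fin L, i.succ = k ∧ i'.castSucc = k ∧
      (i, j) ∈ Rt v ∧ (i', j) ∈ Rt v := by
  simp [vS]

omit [DecidableEq W] in
theorem hS_left {z : Fin L × Fin L} {v : W} (h : v ∈ hS Rt z.1 z.2.castSucc) : z ∈ Rt v := by
  obtain ⟨j, j', -, h2, -, h4⟩ := (mem_hS Rt).1 h
  rw [Fin.castSucc_inj.1 h2] at h4
  exact h4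

omit [DecidableEq W] in
theorem hS_right {z : Fin L × Fin L} {v : W} (h : v ∈ hS Rt z.1 z.2.succ) : z ∈ Rt v := by
  obtain ⟨j, j', h1, -, h3, -⟩ := (mem_hS Rt).1 h
  rw [Fin.succ_inj.1 h1] at h3
  exact h3

omit [DecidableEq W] in
theorem vS_up {z : Fin L × Fin L} {v : W} (h : v ∈ vS Rt z.1.castSucc z.2) : z ∈ Rt v := by
  obtain ⟨j, j', -, h2, -, h4⟩ := (mem_vS Rt).1 h
  rw [Fin.castSucc_inj.1 h2] at h4
  exact h4

omit [DecidableEq W] in
theorem vS_down {z : Fin L × Fin L} {v : W} (h : v ∈ vS Rt z.1.succ z.2) : z ∈ Rt v := by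
  obtain ⟨j, j', h1, -, h3, -⟩ := (mem_vS Rt).1 h
  rw [Fin.succ_inj.1 h1] at h3
  exact h3

omit [DecidableEq W] in
theorem hS_zero (i : Fin L) : hS Rt i 0 = ∅ := by
  refine Finset.eq_empty_of_forall_notMem fun v hv => ?_
  obtain ⟨j, j', h1, -⟩ := (mem_hS Rt).1 hv
  exact Fin.succ_ne_zero _ h1

omit [DecidableEq W] in
theorem hS_last (i : Fin L) : hS Rt i (Fin.last L) = ∅ := by
  refine Finset.eq_empty_of_forall_notMem fun v hv => ?_
  obtain ⟨j, j', -, h2, -⟩ := (mem_hS Rt).1 hv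
  exact Fin.castSucc_ne_last _ h2

omit [DecidableEq W] in
theorem vS_zero (i : Fin L) : vS Rt 0 i = ∅ := by
  refine Finset.eq_empty_of_forall_notMem fun v hv => ?_
  obtain ⟨j, j', h1, -⟩ := (mem_vS Rt).1 hv
  exact Fin.succ_ne_zero _ h1

omit [DecidableEq W] in
theorem vS_last (i : Fin L) : vS Rt (Fin.last L) i = ∅ := by
  refine Finset.eq_empty_of_forall_notMem fun v hv => ?_
  obtain ⟨j, j', -, h2, -⟩ := (mem_vS Rt).1 hv
  exact Fin.castSucc_ne_last _ h2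

variable {κ : ℕ}

omit [DecidableEq W] in
theorem card_hS (hc : ∀ z, (Finset.univ.filter fun v => z ∈ Rt v).card ≤ κ) (i : Fin L)
    (k : Fin (L + 1)) : (hS Rt i k).card ≤ κ := by
  induction k using Fin.cases with
  | zero => rw [hS_zero]; simp
  | succ j =>
    refine le_trans (Finset.card_le_card fun v hv => ?_) (hc (i, j))
    exact Finset.mem_filter.2 ⟨Finset.mem_univ _, hS_right Rt (z := (i, j)) hv⟩

omit [DecidableEq W] in
theorem card_vS (hc : ∀ z, (Finset.univ.filter fun v => z ∈ Rt v).card ≤ κ)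
    (k : Fin (L + 1)) (j : Fin L) : (vS Rt k j).card ≤ κ := by
  induction k using Fin.cases with
  | zero => rw [vS_zero]; simp
  | succ i =>
    refine le_trans (Finset.card_le_card fun v hv => ?_) (hc (i, j))
    exact Finset.mem_filter.2 ⟨Finset.mem_univ _, vS_down Rt (z := (i, j)) hv⟩

/-- Adjacent sites of the grid share a bond. -/
theorem adj_cases {z z' : Fin L × Fin L} (h : (gridGraph L).Adj z z') :
    (z.1 = z'.1 ∧ (z.2.succ = z'.2.castSucc ∨ z'.2.succ = z.2.castSucc)) ∨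
      (z.2 = z'.2 ∧ (z.1.succ = z'.1.castSucc ∨ z'.1.succ = z.1.castSucc)) := by
  obtain ⟨a, b⟩ := z
  obtain ⟨c, d⟩ := z'
  rw [gridGraph, SimpleGraph.fromRel_adj] at h
  obtain ⟨-, h⟩ := h
  simp only [Fin.ext_iff, Fin.val_succ, Fin.val_castSucc] at h ⊢
  rcases h with h | h <;>
  · rcases abs_cases ((a : ℤ) - c) with h1 | h1 <;> rcases abs_cases ((b : ℤ) - d) with h2 | h2 <;>
      rcases abs_cases ((c : ℤ) - a) with h3 | h3 <;>
      rcases abs_cases ((d : ℤ) - b) with h4 | h4 <;> omega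

/-- The general routing lemma. -/
theorem route {q V : ℕ} (hV : 1 ≤ V)
    (hconn : ∀ v, ((gridGraph L).induce (Rt v : Set (Fin L × Fin L))).Connected)
    (hc : ∀ z, (Finset.univ.filter fun v => z ∈ Rt v).card ≤ κ)
    (t : Fin L × Fin L → Fin q → (W → Fin V) → ℂ)
    (ht : ∀ z s x x', (∀ v, z ∈ Rt v → x v = x' v) → t z s x = t z s x') :
    ∃ T : Fin L × Fin L → Fin q → Fin (V ^ κ) → Fin (V ^ κ) → Fin (V ^ κ) → Fin (V ^ κ) → ℂ,
      ∀ σ, pepsVector L (V ^ κ) q T σ = ∑ x : W → Fin V, ∏ z, t z (σ z) x := by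
  classical
  set o : Fin V := ⟨0, hV⟩
  let eh : Fin L → Fin (L + 1) → (W → Fin V) → Fin (V ^ κ) := fun i k =>
    enc hV (hS Rt i k) (card_hS Rt hc i k)
  let ev : Fin (L + 1) → Fin L → (W → Fin V) → Fin (V ^ κ) := fun k j =>
    enc hV (vS Rt k j) (card_vS Rt hc k j)
  let C : Fin L × Fin L → Fin (V ^ κ) → Fin (V ^ κ) → Fin (V ^ κ) → Fin (V ^ κ) →
      (W → Fin V) → Prop := fun z l r u d y =>
    (∀ v, z ∉ Rt v → y v = o) ∧ eh z.1 z.2.castSucc y = l ∧ eh z.1 z.2.succ y = r ∧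
      ev z.1.castSucc z.2 y = u ∧ ev z.1.succ z.2 y = d
  refine ⟨fun z s l r u d => ∑ y : W → Fin V, if C z l r u d y then t z s y else 0, fun σ => ?_⟩
  simp only [pepsVector, PiLp.toLp_apply]
  -- rewrite as one sum over triples
  let Bd : (Fin L → Fin (L + 1) → Fin (V ^ κ)) → (Fin (L + 1) → Fin L → Fin (V ^ κ)) → Prop :=
    fun hb vb => (∀ i, (hb i 0).val = 0 ∧ (hb i (Fin.last L)).val = 0) ∧
      (∀ j, (vb 0 j).val = 0 ∧ (vb (Fin.last L) j).val = 0)
  let Ok : ((Fin L → Fin (L + 1) → Fin (V ^ κ)) × (Fin (L + 1) → Fin L → Fin (V ^ κ)) ×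
      (Fin L × Fin L → W → Fin V)) → Prop := fun p =>
    Bd p.1 p.2.1 ∧ ∀ z : Fin L × Fin L, C z (p.1 z.1 z.2.castSucc) (p.1 z.1 z.2.succ)
      (p.2.1 z.1.castSucc z.2) (p.2.1 z.1.succ z.2) (p.2.2 z)
  have h1 : (∑ hb : Fin L → Fin (L + 1) → Fin (V ^ κ), ∑ vb : Fin (L + 1) → Fin L → Fin (V ^ κ),
      if Bd hb vb then ∏ z : Fin L × Fin L, ∑ y : W → Fin V,
        if C z (hb z.1 z.2.castSucc) (hb z.1 z.2.succ) (vb z.1.castSucc z.2) (vb z.1.succ z.2) y
          then t z (σ z) y else 0 else 0) =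
      ∑ p ∈ Finset.univ.filter Ok, ∏ z, t z (σ z) (p.2.2 z) := by
    rw [Finset.sum_filter, Fintype.sum_prod_type]
    refine Finset.sum_congr rfl fun hb _ => ?_
    rw [Fintype.sum_prod_type]
    refine Finset.sum_congr rfl fun vb _ => ?_
    by_cases hB : Bd hb vb
    · rw [if_pos hB, Finset.prod_univ_sum, Fintype.piFinset_univ]
      refine Finset.sum_congr rfl fun Y _ => ?_
      rw [Finset.prod_ite_zero]
      simp only [hB, true_and, Finset.mem_univ, forall_true_left]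
    · rw [if_neg hB]
      refine (Finset.sum_eq_zero fun Y _ => ?_).symm
      rw [if_neg]
      exact fun h => hB h.1
  refine Eq.trans (by congr) (h1.trans ?_)
  -- the bijection
  let res : (W → Fin V) → Fin L × Fin L → W → Fin V := fun x z v => if z ∈ Rt v then x v else o
  have hres : ∀ x z v, z ∈ Rt v → res x z v = x v := fun x z v h => if_pos h
  symm
  refine Finset.sum_bij (fun x _ => (fun i k => eh i k x, fun k j => ev k j x, res x)) ?_ ?_ ?_ ?_
  · intro x _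
    refine Finset.mem_filter.2 ⟨Finset.mem_univ _, ⟨fun i => ⟨?_, ?_⟩, fun j => ⟨?_, ?_⟩⟩,
      fun z => ⟨fun v hv => if_neg hv, ?_, ?_, ?_, ?_⟩⟩
    · exact enc_val_of_empty hV _ (card_hS Rt hc _ _) _ (hS_zero Rt i)
    · exact enc_val_of_empty hV _ (card_hS Rt hc _ _) _ (hS_last Rt i)
    · exact enc_val_of_empty hV _ (card_vS Rt hc _ _) _ (vS_zero Rt j)
    · exact enc_val_of_empty hV _ (card_vS Rt hc _ _) _ (vS_last Rt j)
    · exact (enc_eq_iff hV _ _ _ _).2 fun v hv => hres x z v (hS_left Rt hv)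
    · exact (enc_eq_iff hV _ _ _ _).2 fun v hv => hres x z v (hS_right Rt hv)
    · exact (enc_eq_iff hV _ _ _ _).2 fun v hv => hres x z v (vS_up Rt hv)
    · exact (enc_eq_iff hV _ _ _ _).2 fun v hv => hres x z v (vS_down Rt hv)
  · intro x _ x' _ h
    have h2 : res x = res x' := congrArg (fun p => p.2.2) h
    funext v
    obtain ⟨⟨z, hz⟩⟩ := (hconn v).nonempty
    rw [← hres x z v hz, ← hres x' z v hz, h2]
  · rintro ⟨hb, vb, Y⟩ hp
    obtain ⟨⟨hB1, hB2⟩, hC⟩ := (Finset.mem_filter.1 hp).2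
    simp only at hB1 hB2 hC
    have hadj : ∀ v z z', z ∈ Rt v → z' ∈ Rt v → (gridGraph L).Adj z z' → Y z v = Y z' v := by
      intro v z z' hz hz' ha
      rcases adj_cases ha with ⟨e1, e2 | e2⟩ | ⟨e1, e2 | e2⟩
      · have a1 := (hC z).2.2.1
        have a2 := (hC z').2.1
        rw [← e1, ← e2] at a2
        refine (enc_eq_iff hV _ _ _ _).1 (a1.trans a2.symm) v ((mem_hS Rt).2 ⟨z.2, z'.2, rfl,
          e2.symm, hz, ?_⟩)
        rw [e1]; exact hz'
      · have a1 := (hC z').2.2.1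
        have a2 := (hC z).2.1
        rw [e1, ← e2] at a2
        refine ((enc_eq_iff hV _ _ _ _).1 (a1.trans a2.symm) v ((mem_hS Rt).2 ⟨z'.2, z.2, rfl,
          e2.symm, hz', ?_⟩)).symm
        rw [← e1]; exact hz
      · have a1 := (hC z).2.2.2.2
        have a2 := (hC z').2.2.2.1
        rw [← e1, ← e2] at a2
        refine (enc_eq_iff hV _ _ _ _).1 (a1.trans a2.symm) v ((mem_vS Rt).2 ⟨z.1, z'.1, rfl,
          e2.symm, hz, ?_⟩)
        rw [e1]; exact hz'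
      · have a1 := (hC z').2.2.2.2
        have a2 := (hC z).2.2.2.1
        rw [e1, ← e2] at a2
        refine ((enc_eq_iff hV _ _ _ _).1 (a1.trans a2.symm) v ((mem_vS Rt).2 ⟨z'.1, z.1, rfl,
          e2.symm, hz', ?_⟩)).symm
        rw [← e1]; exact hz
    have hall : ∀ v z z', z ∈ Rt v → z' ∈ Rt v → Y z v = Y z' v := by
      intro v z z' hz hz'
      obtain ⟨w⟩ := (hconn v).preconnected ⟨z, hz⟩ ⟨z', hz'⟩
      have key : ∀ (a b : (Rt v : Set (Fin L × Fin L)))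
          (w : ((gridGraph L).induce (Rt v : Set (Fin L × Fin L))).Walk a b),
          Y a v = Y b v := by
        intro a b w
        induction w with
        | nil => rfl
        | cons h _ ih => exact (hadj v _ _ (Subtype.prop _) (Subtype.prop _) h).trans ih
      exact key _ _ w
    let x : W → Fin V := fun v => Y (hconn v).nonempty.some v
    have hx : ∀ v z, z ∈ Rt v → Y z v = x v := fun v z hz =>
      hall v _ _ hz (Subtype.prop _)
    refine ⟨x, Finset.mem_univ _, Prod.ext ?_ (Prod.ext ?_ ?_)⟩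
    · funext i k
      induction k using Fin.cases with
      | zero => exact Fin.ext ((enc_val_of_empty hV _ (card_hS Rt hc _ _) _ (hS_zero Rt i)).trans (hB1 i).1.symm)
      | succ j =>
        refine Eq.trans ?_ (hC (i, j)).2.2.1
        exact (enc_eq_iff hV _ _ _ _).2 fun v hv => (hx v _ (hS_right Rt (z := (i, j)) hv)).symm
    · funext k j
      induction k using Fin.cases with
      | zero => exact Fin.ext ((enc_val_of_empty hV _ (card_vS Rt hc _ _) _ (vS_zero Rt j)).trans (hB2 j).1.symm)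
      | succ i =>
        refine Eq.trans ?_ (hC (i, j)).2.2.2.2
        exact (enc_eq_iff hV _ _ _ _).2 fun v hv => (hx v _ (vS_down Rt (z := (i, j)) hv)).symm
    · funext z v
      by_cases hz : z ∈ Rt v
      · exact (hres x z v hz).trans (hx v z hz).symm
      · exact (if_neg hz).trans ((hC z).1 v hz).symm
  · intro x _
    exact Finset.prod_congr rfl fun z _ => ht z _ _ _ fun v hv => (hres x z v hv).symm

end grid

end RT

open RT in
/-- Routing lemma. -/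
theorem rt : RTStmt := by
  classical
  rintro q L Pa _ _ n κ V fin I Φ hV ⟨r⟩ hq ⟨M, hM, hΦ⟩
  let Im : Type := ↥(Finset.univ.image fin)
  let fi : Fin L × Fin L → Im := fun z => ⟨fin z, Finset.mem_image_of_mem _ (Finset.mem_univ _)⟩
  let Rt : Fin n ⊕ Im → Finset (Fin L × Fin L) := Sum.elim (fun g => r.rg g) fun p => r.rp p.1
  have hcd : ∀ p : Pa, Nonempty (({z // fin z = p} → Fin q) ↪ Fin V) := by
    intro p
    refine Function.Embedding.nonempty_of_card_le ?_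
    rw [Fintype.card_fun, Fintype.card_fin, Fintype.card_fin, Fintype.card_subtype]
    exact hq p
  let cd : Pa → (Fin L × Fin L → Fin q) → Fin V := fun p σ => (hcd p).some fun z => σ z.1
  have cd_iff : ∀ p σ σ', cd p σ = cd p σ' ↔ ∀ z, fin z = p → σ z = σ' z := by
    intro p σ σ'
    constructor
    · intro h z hz
      exact congrFun ((hcd p).some.injective h) ⟨z, hz⟩
    · intro h
      exact congrArg (hcd p).some (funext fun z => h z.1 z.2)
  let Q : Pa → (Fin n ⊕ Im → Fin V) → (Fin L × Fin L → Fin q) → Prop := fun p x σ =>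
    ∀ hp : p ∈ Finset.univ.image fin, cd p σ = x (Sum.inr ⟨p, hp⟩)
  let Bf : Pa → ((Fin L × Fin L → Fin q) → Prop) → (Fin n → Fin V) → ℂ := fun p P x =>
    if h : ∃ σ, P σ then M p h.choose x else 0
  let A : Fin L × Fin L → Fin q → Fin V → ℂ := fun z s c =>
    if ∃ σ, cd (fin z) σ = c ∧ σ z = s then 1 else 0
  let t : Fin L × Fin L → Fin q → (Fin n ⊕ Im → Fin V) → ℂ := fun z s x =>
    A z s (x (Sum.inr (fi z))) *
      ∏ p ∈ Finset.univ.filter (fun p => r.loc p = z), Bf p (Q p x) fun g => x (Sum.inl g)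
  refine (route (κ := κ) (q := q) Rt hV ?_ ?_ t ?_).imp fun T hT => ?_
  rotate_right
  · ext σ
    rw [hT σ, hΦ σ, ← (Equiv.sumArrowEquivProdArrow _ _ _).symm.sum_comp, Fintype.sum_prod_type]
    refine Finset.sum_congr rfl fun x _ => ?_
    have hy : ∀ y : Im → Fin V, (∏ z, A z (σ z) (y (fi z))) =
        if y = fun p => cd p.1 σ then 1 else 0 := by
      intro y
      by_cases hy : y = fun p => cd p.1 σ
      · rw [if_pos hy]
        refine Finset.prod_eq_one fun z _ => if_pos ⟨σ, ?_, rfl⟩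
        rw [hy]
      · rw [if_neg hy]
        by_contra hne
        apply hy
        have hz : ∀ z, ∃ σ', cd (fin z) σ' = y (fi z) ∧ σ' z = σ z := by
          intro z
          by_contra hn
          exact hne (Finset.prod_eq_zero (Finset.mem_univ z) (if_neg hn))
        funext p
        obtain ⟨z₀, -, h0⟩ := Finset.mem_image.1 p.2
        have hp : p = fi z₀ := Subtype.ext h0.symm
        subst hp
        obtain ⟨σ₀, h1, -⟩ := hz z₀
        rw [← h1]
        refine (cd_iff _ _ _).2 fun z hz' => ?_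
        obtain ⟨σ₁, h3, h4⟩ := hz z
        have e : fi z = fi z₀ := Subtype.ext hz'
        rw [e, ← h1] at h3
        change fin z = fin z₀ at hz'
        rw [hz'] at h3
        rw [← h4]
        exact ((cd_iff _ _ _).1 h3 z hz').symm
    rw [Finset.sum_eq_single (fun p : Im => cd p.1 σ)]
    · simp only [t, Finset.prod_mul_distrib, Equiv.sumArrowEquivProdArrow_symm_apply_inr,
        Equiv.sumArrowEquivProdArrow_symm_apply_inl]
      rw [hy (fun p : Im => cd p.1 σ), if_pos rfl, one_mul, Finset.prod_fiberwise]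
      refine Finset.prod_congr rfl fun p _ => ?_
      have hex : ∃ σ', Q p ((Equiv.sumArrowEquivProdArrow (Fin n) Im (Fin V)).symm
          (x, fun p : Im => cd p.1 σ)) σ' := ⟨σ, fun hp => rfl⟩
      simp only [Bf]
      rw [dif_pos hex]
      refine hM p _ _ _ _ (fun z hz => ?_) fun g _ => rfl
      have hp : p ∈ Finset.univ.image fin := Finset.mem_image.2 ⟨z, Finset.mem_univ _, hz⟩
      exact (cd_iff _ _ _).1 (hex.choose_spec hp) z hz
    · intro y _ hne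
      simp only [t, Finset.prod_mul_distrib, Equiv.sumArrowEquivProdArrow_symm_apply_inr]
      rw [hy y, if_neg hne, zero_mul]
    · intro h
      exact absurd (Finset.mem_univ _) h
  · rintro (g | p)
    · exact r.conn_g g g.2
    · obtain ⟨z, -, hz⟩ := Finset.mem_image.1 p.2
      have := r.conn_p z
      rw [hz] at this
      exact this
  · intro z
    refine le_trans (le_of_eq ?_) (r.cong z)
    rw [Finset.card_filter, Fintype.sum_sum_type, Finset.card_filter, Finset.card_filter,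
      ← Fin.sum_univ_eq_sum_range (fun t => if z ∈ r.rg t then 1 else 0) n,
      ← Finset.sum_coe_sort (Finset.univ.image fin)]
    rfl
  · intro z s x x' h
    have e1 : x (Sum.inr (fi z)) = x' (Sum.inr (fi z)) := h _ (r.mem_fin z)
    simp only [t]
    rw [e1]
    congr 1
    refine Finset.prod_congr rfl fun p hp => ?_
    have hl : r.loc p = z := (Finset.mem_filter.1 hp).2
    have e2 : Q p x = Q p x' := by
      funext σ
      refine propext (forall_congr' fun hp' => ?_)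
      obtain ⟨z', -, hz'⟩ := Finset.mem_image.1 hp'
      have : x (Sum.inr ⟨p, hp'⟩) = x' (Sum.inr ⟨p, hp'⟩) := by
        refine h _ ?_
        have := r.mem_p z'
        rw [hz', hl] at this
        exact this
      rw [this]
    rw [e2]
    simp only [Bf]
    split_ifs with hex
    · refine hM p _ _ _ _ (fun _ _ => rfl) fun g hg => h _ ?_
      have := r.mem_g g g.2 p hg
      rw [hl] at this
      exact this
    · rfl

/-- The grid graph is connected. -/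
theorem grid_connected {L : ℕ} (hL : 1 ≤ L) : (gridGraph L).Connected := by
  have : Nonempty (Fin L × Fin L) := ⟨(⟨0, hL⟩, ⟨0, hL⟩)⟩
  have hrow : ∀ (i : Fin L) (j : ℕ) (hj : j < L), (gridGraph L).Reachable (i, ⟨0, hL⟩) (i, ⟨j, hj⟩) := by
    intro i j
    induction j with
    | zero => intro _; rfl
    | succ j ih =>
      intro hj
      refine (ih (by omega)).trans (SimpleGraph.Adj.reachable ?_)
      rw [gridGraph, SimpleGraph.fromRel_adj]
      refine ⟨by simp [Fin.ext_iff], Or.inl ?_⟩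
      simp
  have hcol : ∀ (j : Fin L) (i : ℕ) (hi : i < L), (gridGraph L).Reachable (⟨0, hL⟩, j) (⟨i, hi⟩, j) := by
    intro j i
    induction i with
    | zero => intro _; rfl
    | succ i ih =>
      intro hi
      refine (ih (by omega)).trans (SimpleGraph.Adj.reachable ?_)
      rw [gridGraph, SimpleGraph.fromRel_adj]
      refine ⟨by simp [Fin.ext_iff], Or.inl ?_⟩
      simp
  have h0 : ∀ z : Fin L × Fin L, (gridGraph L).Reachable (⟨0, hL⟩, ⟨0, hL⟩) z := fun z =>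
    (hcol ⟨0, hL⟩ z.1 z.1.2).trans (hrow z.1 z.2 z.2.2)
  exact ⟨fun a b => (h0 a).symm.trans (h0 b)⟩

/-- Every vector on the `L × L` grid is a PEPS of bond dimension `q ^ (L * L)`. -/
theorem peps_all {q L : ℕ} (hq : 1 ≤ q) (hL : 1 ≤ L) (Φ : Vec (Fin L × Fin L) q) :
    ∃ T : Fin L × Fin L → Fin q → Fin (q ^ (L * L)) → Fin (q ^ (L * L)) → Fin (q ^ (L * L)) →
      Fin (q ^ (L * L)) → ℂ, pepsVector L (q ^ (L * L)) q T = Φ := by
  have hc : ((gridGraph L).induce ((Finset.univ : Finset (Fin L × Fin L)) :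
      Set (Fin L × Fin L))).Connected := by
    rw [Finset.coe_univ]
    exact (SimpleGraph.induceUnivIso _).connected_iff.2 (grid_connected hL)
  have h := rt q L Unit 0 1 (q ^ (L * L)) (fun _ => ()) (fun _ => ∅) Φ (Nat.one_le_pow _ _ hq)
    ⟨{ loc := fun _ => (⟨0, hL⟩, ⟨0, hL⟩), rg := fun _ => ∅, rp := fun _ => Finset.univ,
       conn_g := fun t ht => absurd ht (Nat.not_lt_zero _), conn_p := fun _ => hc,
       mem_g := fun t ht => absurd ht (Nat.not_lt_zero _), mem_p := fun _ => Finset.mem_univ _,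
       mem_fin := fun _ => Finset.mem_univ _,
       cong := fun z => by
        rw [Finset.range_zero, Finset.filter_empty, Finset.card_empty, zero_add]
        exact le_trans (Finset.card_le_univ _) (by simp) }⟩
    (fun p => by simp) ⟨fun _ σ _ => Φ σ, fun p σ σ' x x' h _ => by
      rw [show σ = σ' from funext fun z => h z rfl], fun σ => by simp⟩
  rw [pow_one] at h
  exact h

end Crest.Agent.N336.P
end

-- ▼ part N336/P/Asm

/-!
# Row 336: assembly of S0523 from the parts (helper43)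
-/

set_option autoImplicit false

namespace Crest.Agent.N336.P

open Crest.MathPhysics.LatticeSpin

/-- Polynomially bounded for `L ≥ 2`. -/
def Pl (f : ℕ → ℕ) : Prop := ∃ e : ℕ, ∀ L, 2 ≤ L → f L ≤ L ^ e

theorem Pl.const (c : ℕ) : Pl fun _ => c :=
  ⟨c, fun _ hL => (Nat.lt_two_pow_self.le).trans (Nat.pow_le_pow_left hL c)⟩

theorem Pl.id : Pl fun L => L := ⟨1, fun _ _ => by simp⟩

theorem Pl.mul {f g : ℕ → ℕ} (hf : Pl f) (hg : Pl g) : Pl fun L => f L * g L := by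
  obtain ⟨a, ha⟩ := hf
  obtain ⟨b, hb⟩ := hg
  exact ⟨a + b, fun L hL => by rw [pow_add]; exact Nat.mul_le_mul (ha L hL) (hb L hL)⟩

theorem Pl.pow {f : ℕ → ℕ} (hf : Pl f) (k : ℕ) : Pl fun L => f L ^ k := by
  obtain ⟨a, ha⟩ := hf
  exact ⟨a * k, fun L hL => by rw [pow_mul]; exact Nat.pow_le_pow_left (ha L hL) k⟩

theorem Pl.add {f g : ℕ → ℕ} (hf : Pl f) (hg : Pl g) : Pl fun L => f L + g L := by
  obtain ⟨a, ha⟩ := hf
  obtain ⟨b, hb⟩ := hg
  refine ⟨a + b + 1, fun L hL => ?_⟩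
  have h1 : L ^ a ≤ L ^ (a + b) := Nat.pow_le_pow_right (by omega) (by omega)
  have h2 : L ^ b ≤ L ^ (a + b) := Nat.pow_le_pow_right (by omega) (by omega)
  have h3 := ha L hL
  have h4 := hb L hL
  show f L + g L ≤ _
  rw [pow_succ]
  nlinarith

theorem exch_mono {Λ : Type} [Fintype Λ] [DecidableEq Λ] {q : ℕ} {Ω : Vec Λ q} {A F : Finset Λ}
    {ε ε' : ℝ} (h : Exch Ω A F ε) (hε : ε ≤ ε') : Exch Ω A F ε' := by
  obtain ⟨U, h1, h2, h3⟩ := h
  exact ⟨U, h1, h2, h3.trans hε⟩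

theorem PatchFam.mono {Λ : Type} [Fintype Λ] [DecidableEq Λ] {q : ℕ} {Ω : Vec Λ q} {B : ℕ}
    {I O : Finset Λ} {ε ε' : ℝ} (h : PatchFam Ω B ε I O) (hε : ε ≤ ε') : PatchFam Ω B ε' I O := by
  obtain ⟨nb, A, a, h1, h2, h3, h4, h5⟩ := h
  exact ⟨nb, A, a, h1, h2, h3, h4, h5.trans hε⟩

theorem net_mono {q : ℕ} {Λ Pa : Type} [Fintype Λ] [DecidableEq Λ] [Fintype Pa] [DecidableEq Pa]
    {φ : Vec Λ q} {n B ℓ : ℕ} {fin : Λ → Pa} {I : ℕ → Finset Pa} {ε ε' : ℝ}
    (h : Nonempty (Net q Λ Pa φ n B ℓ fin I ε)) (hε : ε ≤ ε') :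
    Nonempty (Net q Λ Pa φ n B ℓ fin I ε') := by
  obtain ⟨N⟩ := h
  exact ⟨{ N with close := N.close.trans hε }⟩

/-- The system on the grid. -/
def gridSys {q L : ℕ} {J Δ : ℝ}
    (h : Finset (Fin L × Fin L) → Matrix (Fin L × Fin L → Fin q) (Fin L × Fin L → Fin q) ℂ)
    (hh : IsAdmissibleInteraction (gridGraph L) 1 J h)
    (Ω : EuclideanSpace ℂ (Fin L × Fin L → Fin q)) (E₀ : ℝ)
    (hΩ : IsGappedGroundVector (∑ X, h X) Ω E₀ Δ) : Sys q 1 J Δ (Fin L × Fin L) where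
  pos := gpos L
  inj a b hab := by
    simp only [gpos, Prod.mk.injEq, Nat.cast_inj] at hab
    exact Prod.ext (Fin.ext hab.1) (Fin.ext hab.2)
  G := gridGraph L
  adj x y hxy := by
    rw [gridGraph, SimpleGraph.fromRel_adj] at hxy
    simp only [gpos]
    rcases hxy.2 with h1 | h1
    · exact h1
    · rw [abs_sub_comm ((x.1 : ℕ) : ℤ), abs_sub_comm ((x.2 : ℕ) : ℤ)]; exact h1
  h := h
  adm := hh
  Ω := Ω
  E := E₀
  gap := hΩ

set_option maxHeartbeats 1600000 in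
/-- The statement of S0523 from the parts. -/
theorem s0523_of (hCL : CLStmt) (hRT : RTStmt) (hS : SoundStmt) (hV : VWStmt) (hP : PtStmt)
    (hG : GeoStmt) (q : ℕ) (J Δ : ℝ) (hq : 2 ≤ q) (hJ : 0 < J) (hΔ : 0 < Δ) :
    ∃ C c : ℝ, 0 < C ∧ 0 < c ∧ ∀ L : ℕ, 2 ≤ L →
      ∀ (h : Finset (Fin L × Fin L) →
          Matrix (Fin L × Fin L → Fin q) (Fin L × Fin L → Fin q) ℂ),
        IsAdmissibleInteraction (gridGraph L) 1 J h →
        ∀ (Ω : EuclideanSpace ℂ (Fin L × Fin L → Fin q)) (E₀ : ℝ),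
          IsGappedGroundVector (∑ X, h X) Ω E₀ Δ →
          ∃ D : ℕ, (D : ℝ) ≤ C * (L : ℝ) ^ c ∧
            ∃ T : Fin L × Fin L → Fin q → Fin D → Fin D → Fin D → Fin D → ℂ,
              pepsVector L D q T ≠ 0 ∧ ∃ θ : ℝ,
                ‖((‖pepsVector L D q T‖⁻¹ : ℝ) : ℂ) • pepsVector L D q T
                    - Complex.exp ((θ : ℂ) * Complex.I) • Ω‖ ≤ ((L : ℝ))⁻¹ := by
  obtain ⟨K, hK, hG⟩ := hG
  obtain ⟨cv, Cv, hcv, hCv, hV⟩ := hV q 1 J Δ K (by omega) hJ hΔ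
  obtain ⟨cp, Cp, hcp, hCp, hP⟩ := hP q J Δ (by omega) hJ hΔ
  -- constants
  set M : ℕ := 800 * K ^ 2 + 4 with hM
  set a : ℝ := 3 * Cv + M / cv + M / cp + 2 with ha
  have hMv : 0 ≤ (M : ℝ) / cv := by positivity
  have hMp : 0 ≤ (M : ℝ) / cp := by positivity
  have ha0 : 0 < a := by positivity
  set b : ℕ := ⌈a * (2 + 3 * Cp)⌉₊ with hb
  set L₀ : ℕ := ⌈16 * (K : ℝ) ^ 2 * a ^ 2⌉₊ with hL₀
  let B' : ℕ → ℕ := fun L => (L ^ b) ^ K * q ^ K
  let X : ℕ → ℕ := fun L => K * L ^ 3 * B' L ^ (2 * K ^ 2) * (q ^ K) ^ K * (100 * L)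
  let k : ℕ → ℕ := fun L => 4 * (2 * K) * (X L + 1) ^ 2
  let V : ℕ → ℕ := fun L => (B' L * k L ^ (2 * (2 * K))) ^ 2
  have pB : Pl B' := ((Pl.id.pow b).pow K).mul (Pl.const _)
  have pX : Pl X := ((((Pl.const K).mul (Pl.id.pow 3)).mul (pB.pow _)).mul (Pl.const _)).mul
    ((Pl.const 100).mul Pl.id)
  have pk : Pl k := (Pl.const _).mul ((pX.add (Pl.const 1)).pow 2)
  have pV : Pl V := (pB.mul (pk.pow _)).pow 2
  obtain ⟨e, he⟩ := (pV.pow K).add (Pl.const (q ^ (L₀ * L₀)))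
  refine ⟨1, (e + 1 : ℕ), one_pos, by positivity, fun L hL h hh Ω E₀ hΩ => ?_⟩
  have hL1 : (2 : ℝ) ≤ L := by exact_mod_cast hL
  have hD : ∀ D : ℕ, D ≤ V L ^ K + q ^ (L₀ * L₀) → (D : ℝ) ≤ 1 * (L : ℝ) ^ ((e + 1 : ℕ) : ℝ) := by
    intro D hD
    rw [one_mul, Real.rpow_natCast]
    have : D ≤ L ^ (e + 1) := (hD.trans (he L hL)).trans (Nat.pow_le_pow_right (by omega) (by omega))
    exact_mod_cast this
  rcases le_or_gt L L₀ with hsm | hbig
  · obtain ⟨T, hT⟩ := peps_all (q := q) (L := L) (by omega) (by omega) Ω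
    refine ⟨_, hD _ (le_trans (Nat.pow_le_pow_right (by omega) (Nat.mul_le_mul hsm hsm))
      (Nat.le_add_left _ _)), T, ?_, 0, ?_⟩
    · rw [hT, ← norm_ne_zero_iff, hΩ.1]; exact one_ne_zero
    · rw [hT, hΩ.1]; simp
  -- large `L`
  set s := gridSys h hh Ω E₀ hΩ with hs
  set lg : ℝ := Real.log L with hlg
  have hlg2 : 1 / 2 ≤ lg := by
    have h1 : Real.log 2 ≤ lg := Real.log_le_log (by norm_num) hL1
    linarith [Real.log_two_gt_d9]
  have hlam : 1 ≤ a * lg := by nlinarith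
  obtain ⟨i₀, hi₀, hi₁⟩ := exists_nat_pow_near hlam (one_lt_two (α := ℝ))
  set i₁ := i₀ + 1 with hi
  have hup : (2 : ℝ) ^ i₁ ≤ 2 * (a * lg) := by rw [hi, pow_succ]; linarith
  have hLexp : ∀ r : ℝ, Real.exp (r * lg) = (L : ℝ) ^ r := fun r => by
    rw [Real.rpow_def_of_pos (by linarith), mul_comm]
  set ε : ℝ := Real.exp (-(M * lg)) with hε
  have hε0 : 0 < ε := Real.exp_pos _
  have hεle : ε * (800 * (K : ℝ) ^ 2 * (L : ℝ) ^ 4) ≤ 1 := by
    have h1 : 800 * K ^ 2 * L ^ 4 ≤ L ^ M := by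
      rw [hM, pow_add]
      exact Nat.mul_le_mul_right _ ((Nat.lt_two_pow_self.le).trans (Nat.pow_le_pow_left hL _))
    have h2 : 800 * (K : ℝ) ^ 2 * (L : ℝ) ^ 4 ≤ Real.exp (M * lg) := by
      rw [hLexp, Real.rpow_natCast]; exact_mod_cast h1
    calc _ ≤ ε * Real.exp (M * lg) := by gcongr
      _ = 1 := by rw [hε, ← Real.exp_add]; simp
  have hKL : K * 2 ^ i₁ ≤ L := by
    have h1 : 16 * (K : ℝ) ^ 2 * a ^ 2 ≤ L := (Nat.le_ceil _).trans (Nat.cast_le.2 hbig.le)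
    have h2 : 4 * K * a ≤ Real.sqrt L := Real.le_sqrt_of_sq_le (by nlinarith)
    have h3 : lg ≤ 2 * Real.sqrt L := by
      have h4 : Real.log (Real.sqrt L) ≤ Real.sqrt L - 1 :=
        Real.log_le_sub_one_of_pos (Real.sqrt_pos.2 (by linarith))
      rw [Real.log_sqrt (by linarith)] at h4
      linarith
    have h5 : (K : ℝ) * 2 ^ i₁ ≤ L := by
      have h6 := Real.mul_self_sqrt (show (0 : ℝ) ≤ L by linarith)
      have hK0 : (0 : ℝ) ≤ K := by positivity
      calc (K : ℝ) * 2 ^ i₁ ≤ K * (2 * (a * (2 * Real.sqrt L))) := by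
            gcongr; exact hup.trans (by gcongr)
        _ = 4 * K * a * Real.sqrt L := by ring
        _ ≤ Real.sqrt L * Real.sqrt L := by gcongr
        _ = L := h6
    exact_mod_cast h5
  have hpt : ∀ (i w : ℕ) (x y : ℤ), i ≤ i₁ → w ≤ 30 * 2 ^ i → PatchFam Ω (L ^ b) ε
      (sq (gpos L) x y w)
      (sq (gpos L) (x - (2 ^ i : ℕ)) (y - (2 ^ i : ℕ)) (w + 2 * (2 ^ i : ℕ))) := by
    intro i w x y hi' hw
    refine (hP _ s (2 ^ i) w (L ^ b) x y (a * lg) Nat.one_le_two_pow hw hlam ?_).mono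
      (Real.exp_le_exp.2 ?_)
    · have h1 : ((2 ^ i : ℕ) : ℝ) ≤ 2 * (a * lg) := by
        push_cast
        exact (pow_le_pow_right₀ one_le_two hi').trans hup
      have h2 : 2 * (a * lg) ≤ Real.exp (2 * (a * lg)) := by
        linarith [Real.add_one_le_exp (2 * (a * lg))]
      calc _ ≤ Real.exp (2 * (a * lg)) * Real.exp (Cp * (2 * (a * lg) + a * lg)) := by
            gcongr; exact h1.trans h2
        _ = Real.exp (a * (2 + 3 * Cp) * lg) := by rw [← Real.exp_add]; ring_nf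
        _ ≤ Real.exp (b * lg) := by gcongr; exact Nat.le_ceil _
        _ = _ := by rw [hLexp, Real.rpow_natCast]; push_cast; rfl
    · have h1 : (M : ℝ) ≤ cp * a := by
        have : (M : ℝ) / cp ≤ a := by linarith
        rwa [div_le_iff₀' hcp] at this
      nlinarith
  have hex : ∀ (ℓ : ℕ) (cn : Cone K ℓ), 2 ^ i₁ ≤ ℓ → Exch Ω (cn.A (gpos L)) (cn.F (gpos L)) ε := by
    intro ℓ cn hℓ
    have h0 : a * lg ≤ ℓ := hi₁.le.trans (by exact_mod_cast hℓ)
    refine exch_mono (hV _ s ℓ cn ?_) (Real.exp_le_exp.2 ?_)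
    · have h1 : Real.log ((Fintype.card (Fin L × Fin L) : ℕ) + 2) ≤ 3 * lg := by
        have h2 : ((Fintype.card (Fin L × Fin L) : ℕ) : ℝ) + 2 ≤ (L : ℝ) ^ 3 := by
          simp only [Fintype.card_prod, Fintype.card_fin]
          push_cast
          nlinarith
        have h3 := Real.log_le_log (by positivity) h2
        rwa [Real.log_pow] at h3
      nlinarith
    · have h1 : (M : ℝ) ≤ cv * a := by
        have : (M : ℝ) / cv ≤ a := by linarith
        rwa [div_le_iff₀' hcv] at this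
      nlinarith
  obtain ⟨Pa, _, _, n, fin, I, hn, hplan, hI, hI', hfin, hroutes⟩ :=
    hG L i₁ (fun A F => Exch Ω A F ε) (PatchFam Ω (L ^ b) ε) hKL hpt hex
  have hK1 : (1 : ℝ) ≤ K := by exact_mod_cast hK
  have hn' : (n : ℝ) ≤ K * (L : ℝ) ^ 3 := by exact_mod_cast hn
  have hL3 : (1 : ℝ) ≤ (L : ℝ) ^ 3 := one_le_pow₀ (by linarith)
  have hnK : 4 * ((n : ℝ) * K) * ε * (200 * L) ≤ 1 := by
    refine le_trans ?_ hεle
    calc _ ≤ 4 * (K * (L : ℝ) ^ 3 * K) * ε * (200 * L) := by gcongr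
      _ = _ := by ring
  have hnet := hS q _ Pa Ω (L ^ b) n K K ε fin I hq hΩ.1 (Nat.one_le_pow _ _ (by omega)) hK hε0.le
    (by
      have h1 : ε * (800 * 1 ^ 2 * 1 ^ 4) ≤ ε * (800 * (K : ℝ) ^ 2 * (L : ℝ) ^ 4) := by
        gcongr; linarith
      have h2 : 0 ≤ 4 * ((n : ℝ) * K) * ε := by positivity
      nlinarith) hplan
  have hL0 : (0 : ℝ) < L := by linarith
  have hqK : ∀ p, q ^ (Finset.univ.filter fun z => fin z = p).card ≤ q ^ K := fun p =>
    Nat.pow_le_pow_right (by omega) (hfin p)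
  have hk1 : 4 * (2 * K) ≤ k L := Nat.le_mul_of_pos_right _ (by positivity)
  obtain ⟨Φ, hΦ, hne, θ, hθ⟩ := hCL q _ Pa Ω n (B' L) (2 * K) K (q ^ K) (k L) fin I (1 / (100 * L))
    hΩ.1 (net_mono hnet (by rw [le_div_iff₀ (by positivity)]; nlinarith)) (by positivity)
    (by rw [div_le_div_iff₀ (by positivity) (by norm_num)]; linarith) hI hI' hqK (by omega) hk1
    (by
      have h1 : Real.sqrt (4 * ((2 * K : ℕ) : ℝ) / (k L : ℕ)) = 1 / ((X L : ℝ) + 1) := by
        rw [Real.sqrt_eq_iff_mul_self_eq (by positivity) (by positivity)]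
        simp only [k]
        push_cast
        field_simp
      have h2 : (n : ℝ) * ((B' L : ℕ) : ℝ) ^ (2 * K ^ 2) * ((q ^ K : ℕ) : ℝ) ^ K * (100 * L) ≤ X L := by
        simp only [X]
        push_cast
        gcongr
      rw [h1, mul_one_div, div_le_div_iff₀ (by positivity) (by positivity)]
      linarith)
  have hB1 : q ^ K ≤ B' L := Nat.le_mul_of_pos_left _ (by positivity)
  have hV1 : q ^ K ≤ V L := by
    have h1 : B' L ≤ B' L * k L ^ (2 * (2 * K)) :=
      Nat.le_mul_of_pos_right _ (pow_pos (by omega) _)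
    exact (hB1.trans h1).trans (Nat.le_self_pow two_ne_zero _)
  obtain ⟨T, hT⟩ := hRT q L Pa n K (V L) fin I Φ ((Nat.one_le_pow _ _ (by omega)).trans hV1) hroutes
    (fun p => (hqK p).trans hV1) hΦ
  refine ⟨V L ^ K, hD _ (Nat.le_add_right _ _), T, hT ▸ hne, θ, ?_⟩
  rw [hT]
  refine hθ.trans (le_of_eq ?_)
  field_simp

end Crest.Agent.N336.P
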